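import Mathlib

/-!
**The additive group spanned by the elements `u - 1`, `u` unitary and near `1`: the algebra.**

`D` is a division ring with a star, `ν` a finite family of absolute values, `Wn ν ε` the set of
the unitary elements `u` with `ν i (u - 1) < ε` for all `i`.  `In ν ε` is the additive group
generated by the `u - 1` and `Lm ν ε` is the ring generated by `Wn ν ε`.
-/

set_option linter.unusedSectionVars false

namespace Vale.Agent.P011.H505.Span

variable {D : Type*} [DivisionRing D] [StarRing D] {ι : Type*}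

/-- The unitary elements near `1`. -/
def Wn (ν : ι → AbsoluteValue D ℝ) (ε : ℝ) : Set D :=
  {u | u * star u = 1 ∧ ∀ i, ν i (u - 1) < ε}

/-- The additive group spanned by the `u - 1`. -/
def In (ν : ι → AbsoluteValue D ℝ) (ε : ℝ) : AddSubgroup D :=
  AddSubgroup.closure {x | ∃ u ∈ Wn ν ε, x = u - 1}

/-- The ring spanned by the unitary elements near `1`. -/
def Lm (ν : ι → AbsoluteValue D ℝ) (ε : ℝ) : Subring D := Subring.closure (Wn ν ε)

section basic

variable {ν : ι → AbsoluteValue D ℝ} {ε : ℝ}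

theorem star_mul_of {u : D} (hu : u * star u = 1) : star u * u = 1 := by
  have h0 : u ≠ 0 := by rintro rfl; simp at hu
  have : star u = u⁻¹ := (eq_inv_of_mul_eq_one_right hu)
  rw [this, inv_mul_cancel₀ h0]

theorem sub_mem_In {u : D} (hu : u ∈ Wn ν ε) : u - 1 ∈ In ν ε :=
  AddSubgroup.subset_closure ⟨u, hu, rfl⟩

theorem one_mem_Wn (hε : 0 < ε) : (1 : D) ∈ Wn ν ε := ⟨by simp, fun i => by simpa using hε⟩

theorem Wn_mono {ε' : ℝ} (h : ε ≤ ε') : Wn ν ε ⊆ Wn ν ε' := fun _ hu =>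
  ⟨hu.1, fun i => lt_of_lt_of_le (hu.2 i) h⟩

theorem In_mono {ε' : ℝ} (h : ε ≤ ε') : In ν ε ≤ In ν ε' := by
  apply AddSubgroup.closure_mono
  rintro x ⟨u, hu, rfl⟩
  exact ⟨u, Wn_mono h hu, rfl⟩

omit [StarRing D] in
/-- An element near `1` has absolute value at most `1`. -/
theorem nu_le_one (hna : ∀ i x y, ν i (x + y) ≤ max (ν i x) (ν i y)) (hε : ε ≤ 1) {u : D}
    {i : ι} (hu : ν i (u - 1) < ε) : ν i u ≤ 1 := by
  have h := hna i (u - 1) 1
  rw [sub_add_cancel, map_one] at h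
  exact h.trans (max_le (le_of_lt (lt_of_lt_of_le hu hε)) le_rfl)

theorem mul_mem_Wn (hna : ∀ i x y, ν i (x + y) ≤ max (ν i x) (ν i y)) (hε : ε ≤ 1) {u v : D}
    (hu : u ∈ Wn ν ε) (hv : v ∈ Wn ν ε) : u * v ∈ Wn ν ε := by
  refine ⟨?_, fun i => ?_⟩
  · rw [star_mul, mul_assoc, ← mul_assoc v, hv.1, one_mul, hu.1]
  · have h : u * v - 1 = (u - 1) * v + (v - 1) := by noncomm_ring
    rw [h]
    refine lt_of_le_of_lt (hna i _ _) (max_lt ?_ (hv.2 i))
    rw [map_mul]
    have h1 := nu_le_one hna hε (hv.2 i)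
    calc ν i (u - 1) * ν i v ≤ ν i (u - 1) * 1 :=
          mul_le_mul_of_nonneg_left h1 ((ν i).nonneg _)
      _ = ν i (u - 1) := mul_one _
      _ < ε := hu.2 i

theorem star_mem_Wn (hst : ∀ i, ∃ j, ∀ x, ν j x = ν i (star x)) {u : D}
    (hu : u ∈ Wn ν ε) : star u ∈ Wn ν ε := by
  refine ⟨by rw [star_star]; exact star_mul_of hu.1, fun i => ?_⟩
  obtain ⟨j, hj⟩ := hst i
  have h : star u - 1 = star (u - 1) := by simp
  rw [h, ← hj]
  exact hu.2 j

theorem star_mem_In (hst : ∀ i, ∃ j, ∀ x, ν j x = ν i (star x)) {x : D}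
    (hx : x ∈ In ν ε) : star x ∈ In ν ε := by
  unfold In at hx
  induction hx using AddSubgroup.closure_induction with
  | mem x hx =>
    obtain ⟨u, hu, rfl⟩ := hx
    have h : star (u - 1) = star u - 1 := by simp
    rw [h]
    exact sub_mem_In (star_mem_Wn hst hu)
  | zero => rw [star_zero]; exact zero_mem _
  | add x y _ _ hx hy => rw [star_add]; exact add_mem hx hy
  | neg x _ hx => rw [star_neg]; exact neg_mem hx

theorem Wn_mul_In (hna : ∀ i x y, ν i (x + y) ≤ max (ν i x) (ν i y)) (hε : ε ≤ 1) {w x : D}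
    (hw : w ∈ Wn ν ε) (hx : x ∈ In ν ε) : w * x ∈ In ν ε := by
  unfold In at hx
  induction hx using AddSubgroup.closure_induction with
  | mem x hx =>
    obtain ⟨u, hu, rfl⟩ := hx
    have h : w * (u - 1) = (w * u - 1) - (w - 1) := by noncomm_ring
    rw [h]
    exact sub_mem (sub_mem_In (mul_mem_Wn hna hε hw hu)) (sub_mem_In hw)
  | zero => rw [mul_zero]; exact zero_mem _
  | add x y _ _ hx hy => rw [mul_add]; exact add_mem hx hy
  | neg x _ hx => rw [mul_neg]; exact neg_mem hx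

theorem In_mul_Wn (hna : ∀ i x y, ν i (x + y) ≤ max (ν i x) (ν i y)) (hε : ε ≤ 1) {w x : D}
    (hw : w ∈ Wn ν ε) (hx : x ∈ In ν ε) : x * w ∈ In ν ε := by
  unfold In at hx
  induction hx using AddSubgroup.closure_induction with
  | mem x hx =>
    obtain ⟨u, hu, rfl⟩ := hx
    have h : (u - 1) * w = (u * w - 1) - (w - 1) := by noncomm_ring
    rw [h]
    exact sub_mem (sub_mem_In (mul_mem_Wn hna hε hu hw)) (sub_mem_In hw)
  | zero => rw [zero_mul]; exact zero_mem _
  | add x y _ _ hx hy => rw [add_mul]; exact add_mem hx hy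
  | neg x _ hx => rw [neg_mul]; exact neg_mem hx

theorem Lm_mul_In (hna : ∀ i x y, ν i (x + y) ≤ max (ν i x) (ν i y)) (hε : ε ≤ 1) {a x : D}
    (ha : a ∈ Lm ν ε) (hx : x ∈ In ν ε) : a * x ∈ In ν ε := by
  unfold Lm at ha
  induction ha using Subring.closure_induction generalizing x with
  | mem a ha => exact Wn_mul_In hna hε ha hx
  | zero => rw [zero_mul]; exact zero_mem _
  | one => rw [one_mul]; exact hx
  | add a b _ _ ha hb => rw [add_mul]; exact add_mem (ha hx) (hb hx)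
  | neg a _ ha => rw [neg_mul]; exact neg_mem (ha hx)
  | mul a b _ _ ha hb => rw [mul_assoc]; exact ha (hb hx)

theorem In_mul_Lm (hna : ∀ i x y, ν i (x + y) ≤ max (ν i x) (ν i y)) (hε : ε ≤ 1) {a x : D}
    (ha : a ∈ Lm ν ε) (hx : x ∈ In ν ε) : x * a ∈ In ν ε := by
  unfold Lm at ha
  induction ha using Subring.closure_induction generalizing x with
  | mem a ha => exact In_mul_Wn hna hε ha hx
  | zero => rw [mul_zero]; exact zero_mem _
  | one => rw [mul_one]; exact hx
  | add a b _ _ ha hb => rw [mul_add]; exact add_mem (ha hx) (hb hx)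
  | neg a _ ha => rw [mul_neg]; exact neg_mem (ha hx)
  | mul a b _ _ ha hb => rw [← mul_assoc]; exact hb (ha hx)

theorem In_le_Lm {x : D} (hx : x ∈ In ν ε) : x ∈ Lm ν ε := by
  unfold In at hx
  induction hx using AddSubgroup.closure_induction with
  | mem x hx =>
    obtain ⟨u, hu, rfl⟩ := hx
    exact sub_mem (Subring.subset_closure hu) (one_mem _)
  | zero => exact zero_mem _
  | add x y _ _ hx hy => exact add_mem hx hy
  | neg x _ hx => exact neg_mem hx

end basic

/-! ### Generation -/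

section gen

variable {R : Type*} [CommRing R] [IsDomain R] [Algebra R D]

/-- The set of the `z` having a nonzero multiple in a subring containing `R`. -/
theorem gen_aux [Algebra.IsAlgebraic R D] (Λ : Subring D)
    (hRL : ∀ r : R, algebraMap R D r ∈ Λ) :
    ∃ L : Subring D, (∀ z, z ∈ L ↔ ∃ r : R, r ≠ 0 ∧ algebraMap R D r * z ∈ Λ) ∧
      ∀ z ∈ L, z⁻¹ ∈ L := by
  classical
  let L : Subring D :=
    { carrier := {z | ∃ r : R, r ≠ 0 ∧ algebraMap R D r * z ∈ Λ}
      mul_mem' := by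
        rintro x y ⟨r, hr, hx⟩ ⟨t, ht, hy⟩
        refine ⟨r * t, mul_ne_zero hr ht, ?_⟩
        have h : algebraMap R D (r * t) * (x * y) =
            (algebraMap R D r * x) * (algebraMap R D t * y) := by
          rw [map_mul, mul_assoc, mul_assoc, ← mul_assoc _ x y, ← mul_assoc x,
            Algebra.commutes t x]
        rw [h]; exact mul_mem hx hy
      one_mem' := ⟨1, one_ne_zero, by rw [map_one, one_mul]; exact one_mem _⟩
      add_mem' := by
        rintro x y ⟨r, hr, hx⟩ ⟨t, ht, hy⟩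
        refine ⟨r * t, mul_ne_zero hr ht, ?_⟩
        have h : algebraMap R D (r * t) * (x + y) =
            algebraMap R D t * (algebraMap R D r * x) +
              algebraMap R D r * (algebraMap R D t * y) := by
          rw [mul_add, map_mul]
          congr 1
          · rw [← mul_assoc, ← map_mul, ← map_mul, mul_comm r t]
          · rw [mul_assoc]
        rw [h]; exact add_mem (mul_mem (hRL _) hx) (mul_mem (hRL _) hy)
      zero_mem' := ⟨1, one_ne_zero, by rw [mul_zero]; exact zero_mem _⟩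
      neg_mem' := by
        rintro x ⟨r, hr, hx⟩
        exact ⟨r, hr, by rw [mul_neg]; exact neg_mem hx⟩ }
  have hL : ∀ z, z ∈ L ↔ ∃ r : R, r ≠ 0 ∧ algebraMap R D r * z ∈ Λ := fun z => Iff.rfl
  refine ⟨L, hL, fun z hz => ?_⟩
  have hRL' : ∀ r : R, algebraMap R D r ∈ L := fun r =>
    (hL _).2 ⟨1, one_ne_zero, by rw [map_one, one_mul]; exact hRL r⟩
  by_cases hz0 : z = 0
  · rw [hz0, inv_zero]; exact zero_mem _
  obtain ⟨p, hp0, hp⟩ := Algebra.IsAlgebraic.isAlgebraic (R := R) z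
  -- reduce to a nonzero constant coefficient
  obtain ⟨n, q, hq0, hpq⟩ : ∃ (n : ℕ) (q : Polynomial R), q.coeff 0 ≠ 0 ∧
      p = Polynomial.X ^ n * q := by
    obtain ⟨q, hq⟩ := (Polynomial.X_pow_dvd_iff (f := p) (n := p.natTrailingDegree)).2
      (fun d hd => Polynomial.coeff_eq_zero_of_lt_natTrailingDegree hd)
    refine ⟨p.natTrailingDegree, q, ?_, hq⟩
    have h1 : p.coeff p.natTrailingDegree = q.coeff 0 := by
      have h2 := congrArg (fun f => f.coeff p.natTrailingDegree) hq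
      have h3 := Polynomial.coeff_X_pow_mul q p.natTrailingDegree 0
      rw [zero_add] at h3
      exact h2.trans h3
    rw [← h1]
    exact Polynomial.trailingCoeff_nonzero_iff_nonzero.2 hp0
  have hqz : Polynomial.aeval z q = 0 := by
    rw [hpq, map_mul, map_pow, Polynomial.aeval_X] at hp
    exact (mul_eq_zero.1 hp).resolve_left (pow_ne_zero _ hz0)
  have hq1 : q = Polynomial.X * q.divX + Polynomial.C (q.coeff 0) :=
    (Polynomial.X_mul_divX_add q).symm
  rw [hq1, map_add, map_mul, Polynomial.aeval_X, Polynomial.aeval_C] at hqz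
  have h2 : algebraMap R D (q.coeff 0) * z⁻¹ = - Polynomial.aeval z q.divX := by
    have h3 : algebraMap R D (q.coeff 0) = - (z * Polynomial.aeval z q.divX) := by
      rw [eq_neg_iff_add_eq_zero, add_comm]; exact hqz
    have h4 : z * Polynomial.aeval z q.divX = Polynomial.aeval z q.divX * z := by
      have := Polynomial.aeval_mul (R := R) (A := D) (p := Polynomial.X) (q := q.divX) z
      have h5 : (Polynomial.X : Polynomial R) * q.divX = q.divX * Polynomial.X :=
        mul_comm _ _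
      calc z * Polynomial.aeval z q.divX = Polynomial.aeval z (Polynomial.X * q.divX) := by
            rw [map_mul, Polynomial.aeval_X]
        _ = Polynomial.aeval z (q.divX * Polynomial.X) := by rw [h5]
        _ = _ := by rw [map_mul, Polynomial.aeval_X]
    rw [h3, h4, neg_mul, mul_assoc, mul_inv_cancel₀ hz0, mul_one]
  have h6 : Polynomial.aeval z q.divX ∈ L := by
    rw [Polynomial.aeval_eq_sum_range]
    refine sum_mem fun i _ => ?_
    rw [Algebra.smul_def]
    exact mul_mem (hRL' _) (pow_mem hz i)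
  obtain ⟨r, hr, hr'⟩ := (hL _).1 (neg_mem h6)
  refine (hL _).2 ⟨r * q.coeff 0, mul_ne_zero hr hq0, ?_⟩
  rw [map_mul, mul_assoc, h2]
  exact hr'

variable {ν : ι → AbsoluteValue D ℝ} {ε : ℝ}

/-- The unitary element attached to a symmetric `z`. -/
theorem cay_unitary {ω z : D} (hω : star ω = 1 - ω) (hc : ∀ x, ω * x = x * ω)
    (hz : star z = z) (h1 : z + (1 - ω) ≠ 0) :
    ((z + ω) * (z + (1 - ω))⁻¹) * star ((z + ω) * (z + (1 - ω))⁻¹) = 1 := by
  have hs1 : star (z + ω) = z + (1 - ω) := by rw [star_add, hz, hω]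
  have hs2 : star (z + (1 - ω)) = z + ω := by
    rw [star_add, hz, star_sub, star_one, hω, sub_sub_cancel]
  have h2 : z + ω ≠ 0 := by
    intro h; apply h1; rw [← hs1, h, star_zero]
  have hcomm : (z + ω) * (z + (1 - ω)) = (z + (1 - ω)) * (z + ω) := by
    have := hc z
    rw [add_mul, mul_add, mul_add, add_mul, mul_add, mul_add, mul_sub, mul_sub, sub_mul,
      sub_mul, this]
    simp only [mul_one, one_mul]
    abel
  rw [star_mul, star_inv₀, hs1, hs2]
  calc (z + ω) * (z + (1 - ω))⁻¹ * ((z + ω)⁻¹ * (z + (1 - ω)))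
      = (z + ω) * ((z + (1 - ω))⁻¹ * (z + ω)⁻¹) * (z + (1 - ω)) := by
        simp only [mul_assoc]
    _ = (z + ω) * ((z + ω)⁻¹ * (z + (1 - ω))⁻¹) * (z + (1 - ω)) := by
        rw [← mul_inv_rev, hcomm, mul_inv_rev]
    _ = 1 := by
        rw [← mul_assoc, mul_inv_cancel₀ h2, one_mul, inv_mul_cancel₀ h1]

omit [StarRing D] in
theorem cay_sub {ω z : D} (h1 : z + (1 - ω) ≠ 0) :
    (z + ω) * (z + (1 - ω))⁻¹ - 1 = (ω - (1 - ω)) * (z + (1 - ω))⁻¹ := by
  have h : (z + ω) = (ω - (1 - ω)) + (z + (1 - ω)) := by abel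
  conv_lhs => rw [h, add_mul, mul_inv_cancel₀ h1]
  rw [add_sub_cancel_right]

/-- For a symmetric `z` large at every `ν i`, the Cayley element is in `Wn`. -/
theorem cay_mem [Finite ι] (hna : ∀ i x y, ν i (x + y) ≤ max (ν i x) (ν i y)) (hε : 0 < ε)
    {ω : D} (hω : star ω = 1 - ω) (hne : ω ≠ 1 - ω) (hc : ∀ x, ω * x = x * ω) :
    ∃ M : ℝ, ∀ z : D, star z = z → (∀ i, M < ν i z) → z + (1 - ω) ≠ 0 ∧
      (z + ω) * (z + (1 - ω))⁻¹ ∈ Wn ν ε := by
  classical
  have := Fintype.ofFinite ι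
  let m : ι → ℝ := fun i => ν i (1 - ω) + ν i (ω - (1 - ω)) / ε
  have hm0 : ∀ i, 0 ≤ m i := fun i =>
    add_nonneg ((ν i).nonneg _) (div_nonneg ((ν i).nonneg _) hε.le)
  refine ⟨∑ i, m i, fun z hz hM => ?_⟩
  have h1 : z + (1 - ω) ≠ 0 := by
    intro h
    have h2 : z = -(1 - ω) := eq_neg_of_add_eq_zero_left h
    have h3 : star z = - ω := by
      rw [h2, star_neg, star_sub, star_one, hω, sub_sub_cancel]
    rw [hz, h2] at h3
    exact hne (neg_injective h3).symm
  refine ⟨h1, cay_unitary hω hc hz h1, fun i => ?_⟩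
  have hMi : m i < ν i z := lt_of_le_of_lt
    (Finset.single_le_sum (f := m) (fun j _ => hm0 j) (Finset.mem_univ i)) (hM i)
  have h4 : ν i z ≤ ν i (z + (1 - ω)) := by
    have h5 := hna i (z + (1 - ω)) (-(1 - ω))
    rw [add_neg_cancel_right, AbsoluteValue.map_neg] at h5
    rcases le_max_iff.1 h5 with h6 | h6
    · exact h6
    · exfalso
      have : ν i (1 - ω) ≤ m i := by
        have := div_nonneg ((ν i).nonneg (ω - (1 - ω))) hε.le
        simp only [m]; linarith
      linarith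
  have hz0 : 0 < ν i z := lt_of_le_of_lt (hm0 i) hMi
  have h7 : ν i (ω - (1 - ω)) / ε < ν i (z + (1 - ω)) := by
    have : ν i (ω - (1 - ω)) / ε ≤ m i := by
      have := (ν i).nonneg (1 - ω)
      simp only [m]; linarith
    linarith
  rw [cay_sub h1, map_mul, map_inv₀]
  have h8 : 0 < ν i (z + (1 - ω)) := lt_of_lt_of_le hz0 h4
  rw [← div_eq_mul_inv, div_lt_iff₀ h8]
  rw [div_lt_iff₀ hε] at h7
  linarith

/-- Every element has a nonzero multiple in the ring spanned by the unitary elements near `1`. -/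
theorem gen [Finite ι] [Algebra.IsAlgebraic R D]
    (hna : ∀ i x y, ν i (x + y) ≤ max (ν i x) (ν i y)) (hε : 0 < ε)
    {ω : D} (hω : star ω = 1 - ω) (hne : ω ≠ 1 - ω) (hc : ∀ x, ω * x = x * ω)
    (hbig : ∀ M : ℝ, ∃ f : D, star f = f ∧ ∀ i, M < ν i f)
    (hRL : ∀ r : R, algebraMap R D r ∈ Lm ν ε) (z : D) :
    ∃ r : R, r ≠ 0 ∧ algebraMap R D r * z ∈ Lm ν ε := by
  classical
  have := Fintype.ofFinite ι
  obtain ⟨L, hL, hinv⟩ := gen_aux (Lm ν ε) hRL
  suffices h : z ∈ L by exact (hL z).1 h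
  have hWL : ∀ u ∈ Wn ν ε, u ∈ L := fun u hu =>
    (hL u).2 ⟨1, one_ne_zero, by rw [map_one, one_mul]; exact Subring.subset_closure hu⟩
  obtain ⟨M, hM⟩ := cay_mem (ν := ν) hna hε hω hne hc
  have hκ : ω - (1 - ω) ≠ 0 := sub_ne_zero.2 hne
  -- the elements `(z + (1 - ω)) / (ω - (1 - ω))`
  have hg : ∀ y : D, star y = y → (∀ i, M < ν i y) →
      (y + (1 - ω)) * (ω - (1 - ω))⁻¹ ∈ L := by
    intro y hy hyM
    obtain ⟨h1, h2⟩ := hM y hy hyM
    have h3 := sub_mem (hWL _ h2) (one_mem L)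
    rw [cay_sub h1] at h3
    have h4 := hinv _ h3
    rwa [mul_inv_rev, inv_inv] at h4
  have hsym : ∀ y : D, star y = y → y * (ω - (1 - ω))⁻¹ ∈ L := by
    intro y hy
    obtain ⟨f, hf, hfM⟩ := hbig (max M 0 + ∑ i, ν i y)
    have hyi : ∀ i, ν i y ≤ ∑ i, ν i y := fun i =>
      Finset.single_le_sum (f := fun i => ν i y) (fun j _ => (ν j).nonneg _) (Finset.mem_univ i)
    have h1 : ∀ i, M < ν i f := fun i => by
      have h2 := hfM i
      have h3 := (ν i).nonneg y
      have h4 := hyi i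
      have h5 := le_max_left M 0
      linarith
    have h2 : ∀ i, M < ν i (f + y) := fun i => by
      have h3 := hna i (f + y) (-y)
      rw [add_neg_cancel_right, AbsoluteValue.map_neg] at h3
      have h4 := hfM i
      have h5 := hyi i
      have h6 := le_max_left M 0
      have h7 := le_max_right M 0
      rcases le_max_iff.1 h3 with h8 | h8
      · have := (ν i).nonneg y
        linarith
      · linarith
    have h3 := hg f hf h1
    have h4 := hg (f + y) (by rw [star_add, hf, hy]) h2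
    have h5 := sub_mem h4 h3
    rw [← sub_mul] at h5
    have h6 : f + y + (1 - ω) - (f + (1 - ω)) = y := by abel
    rwa [h6] at h5
  have hκL : ω - (1 - ω) ∈ L := by
    have h := hinv _ (hsym 1 (star_one D))
    rwa [one_mul, inv_inv] at h
  have hsym' : ∀ y : D, star y = y → y ∈ L := by
    intro y hy
    have h := mul_mem (hsym y hy) hκL
    rwa [mul_assoc, inv_mul_cancel₀ hκ, mul_one] at h
  have hωL : ω ∈ L := by
    obtain ⟨f, hf, hfM⟩ := hbig M
    have h := mul_mem (hg f hf hfM) hκL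
    rw [mul_assoc, inv_mul_cancel₀ hκ, mul_one] at h
    have h2 := sub_mem (add_mem (hsym' f hf) (one_mem L)) h
    have h3 : f + 1 - (f + (1 - ω)) = ω := by abel
    rwa [h3] at h2
  -- now every element
  have hcκ : ∀ x, (ω - (1 - ω)) * x = x * (ω - (1 - ω)) := by
    intro x
    rw [sub_mul, mul_sub, sub_mul, mul_sub, hc x, one_mul, mul_one]
  have hcκ' : ∀ x, (ω - (1 - ω))⁻¹ * x = x * (ω - (1 - ω))⁻¹ := by
    intro x
    have h := hcκ x
    calc (ω - (1 - ω))⁻¹ * x = (ω - (1 - ω))⁻¹ * (x * (ω - (1 - ω))) * (ω - (1 - ω))⁻¹ := by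
          rw [mul_assoc, mul_assoc, mul_inv_cancel₀ hκ, mul_one]
      _ = x * (ω - (1 - ω))⁻¹ := by
          rw [← h, ← mul_assoc, inv_mul_cancel₀ hκ, one_mul]
  have hsκ : star (ω - (1 - ω))⁻¹ = - (ω - (1 - ω))⁻¹ := by
    rw [star_inv₀]
    have : star (ω - (1 - ω)) = - (ω - (1 - ω)) := by
      rw [star_sub, star_sub, star_one, hω]; abel
    rw [this, inv_neg]
  let y : D := (z - star z) * (ω - (1 - ω))⁻¹
  have hy : star y = y := by
    simp only [y]
    rw [star_mul, hsκ, star_sub, star_star, neg_mul, ← mul_neg, neg_sub, hcκ']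
  have hyz : (z - star z) = (ω - (1 - ω)) * y := by
    simp only [y]
    rw [hcκ, mul_assoc, inv_mul_cancel₀ hκ, mul_one]
  have hx : star (z - ω * y) = z - ω * y := by
    rw [star_sub, star_mul, hy, hω]
    have h1 : y * (1 - ω) = (1 - ω) * y := by rw [mul_sub, sub_mul, hc y, mul_one, one_mul]
    have h2 : star z = z - (ω - (1 - ω)) * y := by rw [← hyz]; abel
    rw [h1, h2]
    noncomm_ring
  have h1 := add_mem (hsym' _ hx) (mul_mem hωL (hsym' y hy))
  rwa [sub_add_cancel] at h1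

/-- Every element has a nonzero multiple in the additive group spanned by the `u - 1`. -/
theorem genI [Finite ι] [Algebra.IsAlgebraic R D]
    (hna : ∀ i x y, ν i (x + y) ≤ max (ν i x) (ν i y)) (hε : 0 < ε) (hε1 : ε ≤ 1)
    {ω : D} (hω : star ω = 1 - ω) (hne : ω ≠ 1 - ω) (hc : ∀ x, ω * x = x * ω)
    (hbig : ∀ M : ℝ, ∃ f : D, star f = f ∧ ∀ i, M < ν i f)
    (hRL : ∀ r : R, algebraMap R D r ∈ Lm ν ε) (z : D) :
    ∃ r : R, r ≠ 0 ∧ algebraMap R D r * z ∈ In ν ε := by
  obtain ⟨M, hM⟩ := cay_mem (ν := ν) hna hε hω hne hc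
  obtain ⟨f, hf, hfM⟩ := hbig M
  obtain ⟨h1, h2⟩ := hM f hf hfM
  have hκ : ω - (1 - ω) ≠ 0 := sub_ne_zero.2 hne
  have h3 := sub_mem_In h2
  rw [cay_sub h1] at h3
  set w : D := (ω - (1 - ω)) * (f + (1 - ω))⁻¹ with hw
  have hw0 : w ≠ 0 := mul_ne_zero hκ (inv_ne_zero h1)
  obtain ⟨r, hr, hr'⟩ := gen (R := R) hna hε hω hne hc hbig hRL (z * w⁻¹)
  refine ⟨r, hr, ?_⟩
  have h4 := Lm_mul_In hna hε1 hr' h3
  rwa [mul_assoc, mul_assoc, inv_mul_cancel₀ hw0, mul_one] at h4

end gen

/-! ### Assembly from the local statements -/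

section asm

omit [StarRing D] in
theorem mem_of_local {R : Type*} [CommRing R] [Algebra R D] (I : AddSubgroup D)
    (hI : ∀ r : R, ∀ x ∈ I, algebraMap R D r * x ∈ I) (x : D)
    (h : ∀ P : Ideal R, P.IsMaximal → ∃ m, m ∉ P ∧ algebraMap R D m * x ∈ I) : x ∈ I := by
  let J : Ideal R :=
    { carrier := {r | algebraMap R D r * x ∈ I}
      add_mem' := by
        intro a b ha hb
        simp only [Set.mem_ofPred_eq] at ha hb ⊢
        rw [map_add, add_mul]; exact add_mem ha hb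
      zero_mem' := by
        simp only [Set.mem_ofPred_eq]
        rw [map_zero, zero_mul]; exact zero_mem _
      smul_mem' := by
        intro c a ha
        simp only [Set.mem_ofPred_eq] at ha ⊢
        rw [smul_eq_mul, map_mul, mul_assoc]; exact hI c _ ha }
  have hJ : J = ⊤ := by
    by_contra hne
    obtain ⟨P, hP, hJP⟩ := Ideal.exists_le_maximal J hne
    obtain ⟨m, hm, hmx⟩ := h P hP
    exact hm (hJP hmx)
  have h1 : (1 : R) ∈ J := by rw [hJ]; trivial
  have h2 : algebraMap R D 1 * x ∈ I := h1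
  rwa [map_one, one_mul] at h2

omit [StarRing D] in
/-- The form over a principal ideal domain. -/
theorem mem_of_prime {R : Type*} [CommRing R] [IsDomain R] [IsPrincipalIdealRing R]
    [Algebra R D] (I : AddSubgroup D)
    (hI : ∀ r : R, ∀ x ∈ I, algebraMap R D r * x ∈ I) (x : D)
    (h0 : ∃ r : R, r ≠ 0 ∧ algebraMap R D r * x ∈ I)
    (h : ∀ π : R, Prime π → ∃ m, ¬ π ∣ m ∧ algebraMap R D m * x ∈ I) : x ∈ I := by
  refine mem_of_local I hI x fun P hP => ?_
  obtain ⟨π, hπ⟩ := IsPrincipalIdealRing.principal P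
  rw [← Ideal.span] at hπ
  by_cases h1 : π = 0
  · obtain ⟨r, hr, hr'⟩ := h0
    refine ⟨r, ?_, hr'⟩
    rw [hπ, h1, Ideal.mem_span_singleton]
    intro h2; exact hr (zero_dvd_iff.1 h2)
  · have hp : Prime π := by
      have := hP.isPrime
      rw [hπ] at this
      exact (Ideal.span_singleton_prime h1).1 this
    obtain ⟨m, hm, hm'⟩ := h π hp
    exact ⟨m, by rw [hπ, Ideal.mem_span_singleton]; exact hm, hm'⟩

omit [StarRing D] in
/-- **Assembly.**  `O` is a subset of `k` (the integers, or the functions regular outside a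
finite set), `I` is stable under `R`. -/
theorem span_asm {R k Pl κ : Type*} [CommRing R] [IsDomain R] [IsPrincipalIdealRing R]
    [Field k] [Algebra R k] [Algebra k D] [Algebra R D] [IsScalarTower R k D]
    [FaithfulSMul R k] [Fintype κ]
    (b : Module.Basis κ k D) (I : AddSubgroup D)
    (hI : ∀ r : R, ∀ x ∈ I, algebraMap R D r * x ∈ I)
    (h0 : ∀ x : D, ∃ r : R, r ≠ 0 ∧ algebraMap R D r * x ∈ I)
    (O : Set k) (hOR : ∀ r : R, ∀ c ∈ O, algebraMap R k r * c ∈ O)
    (N0 : R) (hN0 : N0 ≠ 0)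
    (hO : ∀ c ∈ O, ∀ i, algebraMap k D (algebraMap R k N0 * c) * b i ∈ I)
    (a : Pl → AbsoluteValue k ℝ) (hna : ∀ v x y, a v (x + y) ≤ max (a v x) (a v y))
    (A : Finset Pl)
    (hloc : ∀ π : R, Prime π → ∃ S : Finset Pl,
      (∀ c : k, (∀ v ∈ S, a v c ≤ 1) → ∃ m : R, ¬ π ∣ m ∧ algebraMap R k m * c ∈ O) ∧
      (∀ x : D, ∀ η : ℝ, 0 < η → ∃ y ∈ I, ∀ v ∈ S, ∀ i,
        (v ∉ A → a v (b.repr (x - y) i) < η) ∧ (v ∈ A → a v (b.repr y i) < η)))
    (ν : ι → AbsoluteValue D ℝ)
    (hν : ∀ v ∈ A, ∀ η : ℝ, 0 < η → ∃ δ > 0, ∀ x : D, (∀ i, ν i x < δ) →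
      ∀ l, a v (b.repr x l) < η) :
    ∃ δ > 0, ∀ x : D, (∀ i, ν i x < δ) → x ∈ I := by
  classical
  have hN0k : algebraMap R k N0 ≠ 0 := by
    intro h
    rw [← map_zero (algebraMap R k)] at h
    exact hN0 (FaithfulSMul.algebraMap_injective R k h)
  have hNpos : ∀ v, 0 < a v (algebraMap R k N0) := fun v => (a v).pos hN0k
  -- the uniform `δ`
  obtain ⟨δ, hδ, hδA⟩ : ∃ δ : ℝ, 0 < δ ∧ ∀ x : D, (∀ i, ν i x < δ) →
      ∀ v ∈ A, ∀ l, a v (b.repr x l) < a v (algebraMap R k N0) := by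
    have h1 : ∀ B : Finset Pl, B ⊆ A → ∃ δ : ℝ, 0 < δ ∧ ∀ x : D, (∀ i, ν i x < δ) →
      ∀ v ∈ B, ∀ l, a v (b.repr x l) < a v (algebraMap R k N0) := by
      intro B
      induction B using Finset.induction_on with
      | empty => intro _; exact ⟨1, one_pos, fun x _ v hv => absurd hv (Finset.notMem_empty _)⟩
      | insert v B hv ih =>
        intro hB
        obtain ⟨δ1, hδ1, h1⟩ := ih (fun w hw => hB (Finset.mem_insert_of_mem hw))
        obtain ⟨δ2, hδ2, h2⟩ := hν v (hB (Finset.mem_insert_self _ _)) _ (hNpos v)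
        refine ⟨min δ1 δ2, lt_min hδ1 hδ2, fun x hx w hw l => ?_⟩
        rcases Finset.mem_insert.1 hw with rfl | hw
        · exact h2 x (fun i => lt_of_lt_of_le (hx i) (min_le_right _ _)) l
        · exact h1 x (fun i => lt_of_lt_of_le (hx i) (min_le_left _ _)) w hw l
    exact h1 A (Finset.Subset.refl _)
  refine ⟨δ, hδ, fun x hx => ?_⟩
  refine mem_of_prime I hI x (h0 x) fun π hπ => ?_
  obtain ⟨S, hS1, hS2⟩ := hloc π hπ
  obtain ⟨η, hη, hηS⟩ : ∃ η : ℝ, 0 < η ∧ ∀ v ∈ S, η ≤ a v (algebraMap R k N0) := by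
    rcases S.eq_empty_or_nonempty with h | h
    · exact ⟨1, one_pos, fun v hv => by rw [h] at hv; exact absurd hv (Finset.notMem_empty _)⟩
    · refine ⟨S.inf' h (fun v => a v (algebraMap R k N0)), ?_, fun v hv =>
        Finset.inf'_le _ hv⟩
      rw [Finset.lt_inf'_iff]
      exact fun v _ => hNpos v
  obtain ⟨y, hyI, hy⟩ := hS2 x η hη
  have hcoord : ∀ v ∈ S, ∀ i, a v (b.repr (x - y) i) < a v (algebraMap R k N0) := by
    intro v hv i
    by_cases hvA : v ∈ A
    · rw [map_sub, Finsupp.sub_apply, sub_eq_add_neg]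
      refine lt_of_le_of_lt (hna v _ _) (max_lt (hδA x hx v hvA i) ?_)
      rw [AbsoluteValue.map_neg]
      exact lt_of_lt_of_le ((hy v hv i).2 hvA) (hηS v hv)
    · exact lt_of_lt_of_le ((hy v hv i).1 hvA) (hηS v hv)
  -- multipliers
  have hm : ∀ i, ∃ m : R, ¬ π ∣ m ∧
      algebraMap R k m * (b.repr (x - y) i / algebraMap R k N0) ∈ O := by
    intro i
    refine hS1 _ fun v hv => ?_
    rw [map_div₀, div_le_one (hNpos v)]
    exact (hcoord v hv i).le
  choose m hm1 hm2 using hm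
  have hmI : algebraMap R D (∏ i, m i) * (x - y) ∈ I := by
    have h1 : x - y = ∑ i, algebraMap k D (b.repr (x - y) i) * b i := by
      conv_lhs => rw [← b.sum_repr (x - y)]
      exact Finset.sum_congr rfl fun i _ => by rw [Algebra.smul_def]
    rw [h1, Finset.mul_sum]
    refine sum_mem fun i _ => ?_
    have h2 := hO _ (hOR (∏ j ∈ Finset.univ.erase i, m j) _ (hm2 i)) i
    have h3 : algebraMap R k N0 * (algebraMap R k (∏ j ∈ Finset.univ.erase i, m j) *
        (algebraMap R k (m i) * (b.repr (x - y) i / algebraMap R k N0))) =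
        algebraMap R k (∏ i, m i) * b.repr (x - y) i := by
      rw [← Finset.mul_prod_erase Finset.univ m (Finset.mem_univ i), map_mul]
      field_simp
    rw [h3, map_mul, ← IsScalarTower.algebraMap_apply, mul_assoc] at h2
    exact h2
  refine ⟨∏ i, m i, ?_, ?_⟩
  · intro h
    obtain ⟨i, _, hi⟩ := (hπ.dvd_finsetProd_iff _).1 h
    exact hm1 i hi
  · have h1 := add_mem hmI (hI (∏ i, m i) y hyI)
    rwa [← mul_add, sub_add_cancel] at h1

end asm

end Vale.Agent.P011.H505.Span
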