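import Mathlib

/-!
**Local density of an additive group stable under a large ring.**

`end_dense`: a subalgebra of `End_k D` containing all multiplications and the star is everything.

`dens_at`: let `I` be an additive subgroup of `D`, stable under a ring `Λ` on both sides, under
the star and under a ring `R` of scalars.  If `I` has elements unbounded at a place `v` and small
at finitely many other places, then `I` is dense in `D_v` by elements small at the others.
-/

open Module Filter Topology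

set_option linter.unusedSectionVars false
set_option linter.unusedSimpArgs false

noncomputable section

namespace Vale.Agent.P011.H505.Span

section enddense

variable {k D : Type*} [Field k] [DivisionRing D] [StarRing D] [Algebra k D]

/-- The star as a linear map. -/
def starL (hst : ∀ (c : k) (x : D), star (c • x) = c • star x) : D →ₗ[k] D where
  toFun x := star x
  map_add' x y := star_add x y
  map_smul' c x := hst c x

@[simp] theorem starL_apply (hst : ∀ (c : k) (x : D), star (c • x) = c • star x) (x : D) :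
    starL hst x = star x := rfl

/-- **Density**: the algebra generated by the multiplications and the star is `End_k D`. -/
theorem end_dense [FiniteDimensional k D]
    (hst : ∀ (c : k) (x : D), star (c • x) = c • star x)
    (hcen : ∀ z : D, (∀ x, z * x = x * z) → star z = z → ∃ c : k, algebraMap k D c = z)
    (T : Subalgebra k (Module.End k D)) (hL : ∀ a, LinearMap.mulLeft k a ∈ T)
    (hR : ∀ a, LinearMap.mulRight k a ∈ T) (hS : starL hst ∈ T) (φ : Module.End k D) :
    φ ∈ T := by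
  classical
  have hsimple : IsSimpleModule T D := by
    refine { exists_pair_ne := ⟨⊥, ⊤, ?_⟩, eq_bot_or_eq_top := ?_ }
    · intro h
      have h1 : (1 : D) ∈ (⊥ : Submodule T D) := by rw [h]; trivial
      rw [Submodule.mem_bot] at h1
      exact one_ne_zero h1
    · intro P
      by_cases hP : P = ⊥
      · exact Or.inl hP
      · right
        obtain ⟨x, hx, hx0⟩ := Submodule.exists_mem_ne_zero_of_ne_bot hP
        rw [eq_top_iff]
        intro y _
        have h1 := P.smul_mem (⟨LinearMap.mulLeft k (y * x⁻¹), hL _⟩ : T) hx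
        have h2 : (⟨LinearMap.mulLeft k (y * x⁻¹), hL _⟩ : T) • x = y := by
          change LinearMap.mulLeft k (y * x⁻¹) x = y
          rw [LinearMap.mulLeft_apply, mul_assoc, inv_mul_cancel₀ hx0, mul_one]
        rwa [h2] at h1
  have hend : ∀ g : Module.End T D, ∃ c : k, ∀ x, g x = c • x := by
    intro g
    have h1 : ∀ x, g x = x * g 1 := by
      intro x
      have h := g.map_smul (⟨LinearMap.mulLeft k x, hL x⟩ : T) 1
      change g (LinearMap.mulLeft k x 1) = LinearMap.mulLeft k x (g 1) at h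
      rwa [LinearMap.mulLeft_apply, LinearMap.mulLeft_apply, mul_one] at h
    have h2 : ∀ x, g x = g 1 * x := by
      intro x
      have h := g.map_smul (⟨LinearMap.mulRight k x, hR x⟩ : T) 1
      change g (LinearMap.mulRight k x 1) = LinearMap.mulRight k x (g 1) at h
      rwa [LinearMap.mulRight_apply, LinearMap.mulRight_apply, one_mul] at h
    have h3 : star (g 1) = g 1 := by
      have h := g.map_smul (⟨starL hst, hS⟩ : T) 1
      change g (star (1 : D)) = star (g 1) at h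
      rw [star_one] at h
      exact h.symm
    obtain ⟨c, hc⟩ := hcen (g 1) (fun x => by rw [← h2, ← h1]) h3
    exact ⟨c, fun x => by rw [h2, ← hc, Algebra.smul_def]⟩
  let f : Module.End (Module.End T D) D :=
    { toFun := φ
      map_add' := φ.map_add
      map_smul' := by
        intro g x
        obtain ⟨c, hc⟩ := hend g
        change φ (g x) = g (φ x)
        rw [hc, hc, φ.map_smul] }
  let bs := Module.finBasis k D
  obtain ⟨r, hr⟩ := jacobson_density (R := T) f (Finset.univ.image bs)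
  have h1 : φ = (r : Module.End k D) := by
    refine bs.ext fun i => ?_
    exact hr (bs i) (Finset.mem_image_of_mem _ (Finset.mem_univ i))
  rw [h1]
  exact r.2

end enddense

section coords

variable {k D F κ : Type*} [Field k] [DivisionRing D] [Algebra k D] [NormedField F]
  [Fintype κ] [DecidableEq κ]

/-- The coordinates, in `F`. -/
def jc (b : Basis κ k D) (f : k →+* F) (x : D) : κ → F := fun i => f (b.repr x i)

/-- The extension of a linear map. -/
def MF (b : Basis κ k D) (f : k →+* F) (φ : D →ₗ[k] D) : (κ → F) →ₗ[F] (κ → F) :=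
  Matrix.mulVecLin ((LinearMap.toMatrix b b φ).map f)

variable {b : Basis κ k D} {f : k →+* F}

theorem jc_add (x y : D) : jc b f (x + y) = jc b f x + jc b f y := by
  funext i; simp [jc]

theorem jc_sub (x y : D) : jc b f (x - y) = jc b f x - jc b f y := by
  funext i; simp [jc]

theorem jc_neg (x : D) : jc b f (-x) = - jc b f x := by
  funext i; simp [jc]

theorem jc_zero : jc b f (0 : D) = 0 := by
  funext i; simp [jc]

theorem jc_smul (c : k) (x : D) : jc b f (c • x) = f c • jc b f x := by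
  funext i; simp [jc]

theorem MF_jc (φ : D →ₗ[k] D) (x : D) : MF b f φ (jc b f x) = jc b f (φ x) := by
  funext i
  simp only [MF, Matrix.mulVecLin_apply, Matrix.mulVec, dotProduct, jc, Matrix.map_apply]
  rw [← LinearMap.toMatrix_mulVec_repr b b φ x]
  simp only [Matrix.mulVec, dotProduct, map_sum, map_mul]

theorem MF_add (φ ψ : D →ₗ[k] D) (ξ : κ → F) : MF b f (φ + ψ) ξ = MF b f φ ξ + MF b f ψ ξ := by
  simp only [MF, Matrix.mulVecLin_apply]
  rw [map_add, ← Matrix.add_mulVec]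
  congr 1
  ext i j; simp

theorem MF_zero (ξ : κ → F) : MF b f (0 : D →ₗ[k] D) ξ = 0 := by
  simp only [MF, Matrix.mulVecLin_apply]
  rw [map_zero]
  have : (0 : Matrix κ κ k).map f = 0 := by ext i j; simp
  rw [this, Matrix.zero_mulVec]

theorem MF_smul (c : k) (φ : D →ₗ[k] D) (ξ : κ → F) :
    MF b f (c • φ) ξ = f c • MF b f φ ξ := by
  simp only [MF, Matrix.mulVecLin_apply]
  rw [map_smul, ← Matrix.smul_mulVec]
  congr 1
  ext i j; simp

theorem MF_id (ξ : κ → F) : MF b f (LinearMap.id : D →ₗ[k] D) ξ = ξ := by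
  simp only [MF, Matrix.mulVecLin_apply]
  rw [LinearMap.toMatrix_id]
  have : (1 : Matrix κ κ k).map f = 1 := Matrix.map_one _ (map_zero f) (map_one f)
  rw [this, Matrix.one_mulVec]

theorem MF_comp (φ ψ : D →ₗ[k] D) (ξ : κ → F) :
    MF b f (φ ∘ₗ ψ) ξ = MF b f φ (MF b f ψ ξ) := by
  simp only [MF, Matrix.mulVecLin_apply]
  rw [LinearMap.toMatrix_comp b b b, Matrix.map_mul, Matrix.mulVec_mulVec]

theorem MF_continuous (φ : D →ₗ[k] D) : Continuous (MF b f φ : (κ → F) → (κ → F)) := by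
  simp only [MF, Matrix.mulVecLin_apply]
  exact Continuous.matrix_mulVec continuous_const continuous_id

/-- The size of `x` at an absolute value. -/
def nb (b : Basis κ k D) (a : AbsoluteValue k ℝ) (x : D) : ℝ := ∑ i, a (b.repr x i)

omit [DecidableEq κ] in
theorem nb_nonneg (a : AbsoluteValue k ℝ) (x : D) : 0 ≤ nb b a x :=
  Finset.sum_nonneg fun _ _ => a.nonneg _

omit [DecidableEq κ] in
theorem nb_zero (a : AbsoluteValue k ℝ) : nb b a (0 : D) = 0 := by simp [nb]

omit [DecidableEq κ] in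
theorem nb_neg (a : AbsoluteValue k ℝ) (x : D) : nb b a (-x) = nb b a x := by simp [nb]

omit [DecidableEq κ] in
theorem nb_add (a : AbsoluteValue k ℝ) (x y : D) : nb b a (x + y) ≤ nb b a x + nb b a y := by
  rw [nb, nb, nb, ← Finset.sum_add_distrib]
  refine Finset.sum_le_sum fun i _ => ?_
  rw [map_add, Finsupp.add_apply]
  exact a.add_le _ _

omit [DecidableEq κ] in
theorem le_nb (a : AbsoluteValue k ℝ) (x : D) (i : κ) : a (b.repr x i) ≤ nb b a x :=
  Finset.single_le_sum (f := fun i => a (b.repr x i)) (fun _ _ => a.nonneg _) (Finset.mem_univ i)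

theorem nb_map (a : AbsoluteValue k ℝ) (φ : D →ₗ[k] D) :
    ∃ C : ℝ, 0 < C ∧ ∀ x, nb b a (φ x) ≤ C * nb b a x := by
  refine ⟨1 + ∑ i, ∑ j, a (LinearMap.toMatrix b b φ i j), ?_, fun x => ?_⟩
  · have : 0 ≤ ∑ i, ∑ j, a (LinearMap.toMatrix b b φ i j) :=
      Finset.sum_nonneg fun _ _ => Finset.sum_nonneg fun _ _ => a.nonneg _
    linarith
  · have h1 : ∀ i, a (b.repr (φ x) i) ≤ (∑ j, a (LinearMap.toMatrix b b φ i j)) * nb b a x := by
      intro i
      rw [← LinearMap.toMatrix_mulVec_repr b b φ x, Matrix.mulVec, dotProduct, Finset.sum_mul]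
      refine (a.sum_le _ _).trans (Finset.sum_le_sum fun j _ => ?_)
      rw [map_mul]
      exact mul_le_mul_of_nonneg_left (le_nb a x j) (a.nonneg _)
    have h2 : nb b a (φ x) ≤ (∑ i, ∑ j, a (LinearMap.toMatrix b b φ i j)) * nb b a x := by
      rw [Finset.sum_mul]
      exact Finset.sum_le_sum fun i _ => h1 i
    have h3 := nb_nonneg (b := b) a x
    rw [add_mul, one_mul]
    linarith

end coords

section closed

variable {k D F κ σ : Type*} [Field k] [DivisionRing D] [Algebra k D] [NormedField F]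
  [Fintype κ] [DecidableEq κ]

/-- The elements of `D_v` approximable by elements of `I` small at the absolute values `a w`,
`w ∈ S`. -/
def YY (b : Basis κ k D) (f : k →+* F) (a : σ → AbsoluteValue k ℝ) (S : Finset σ)
    (I : AddSubgroup D) : AddSubgroup (κ → F) where
  carrier := {ξ | ∀ η : ℝ, 0 < η → ∃ y ∈ I, ‖jc b f y - ξ‖ < η ∧ ∀ w ∈ S, nb b (a w) y < η}
  zero_mem' := fun η hη => ⟨0, zero_mem _, by simpa [jc_zero] using hη, fun w _ => by
    rw [nb_zero]; exact hη⟩
  add_mem' := by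
    intro ξ ζ hξ hζ η hη
    obtain ⟨y, hy, h1, h2⟩ := hξ (η / 2) (by linarith)
    obtain ⟨z, hz, h3, h4⟩ := hζ (η / 2) (by linarith)
    refine ⟨y + z, add_mem hy hz, ?_, fun w hw => ?_⟩
    · have h : jc b f (y + z) - (ξ + ζ) = (jc b f y - ξ) + (jc b f z - ζ) := by
        rw [jc_add]; abel
      rw [h]
      refine lt_of_le_of_lt (norm_add_le _ _) (by linarith)
    · have := nb_add (b := b) (a w) y z
      have := h2 w hw
      have := h4 w hw
      linarith
  neg_mem' := by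
    intro ξ hξ η hη
    obtain ⟨y, hy, h1, h2⟩ := hξ η hη
    refine ⟨-y, neg_mem hy, ?_, fun w hw => by rw [nb_neg]; exact h2 w hw⟩
    have h : jc b f (-y) - -ξ = -(jc b f y - ξ) := by rw [jc_neg]; abel
    rw [h, norm_neg]; exact h1

variable {b : Basis κ k D} {f : k →+* F} {a : σ → AbsoluteValue k ℝ} {S : Finset σ}
  {I : AddSubgroup D}

theorem mem_YY {ξ : κ → F} : ξ ∈ YY b f a S I ↔
    ∀ η : ℝ, 0 < η → ∃ y ∈ I, ‖jc b f y - ξ‖ < η ∧ ∀ w ∈ S, nb b (a w) y < η := Iff.rfl

theorem YY_closed : IsClosed (YY b f a S I : Set (κ → F)) := by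
  refine isClosed_of_closure_subset fun ξ hξ => ?_
  change ∀ η : ℝ, 0 < η → _
  intro η hη
  rw [Metric.mem_closure_iff] at hξ
  obtain ⟨ζ, hζ, h⟩ := hξ (η / 2) (by linarith)
  obtain ⟨y, hy, h1, h2⟩ := (mem_YY.1 hζ) (η / 2) (by linarith)
  refine ⟨y, hy, ?_, fun w hw => by linarith [h2 w hw]⟩
  have h3 : jc b f y - ξ = (jc b f y - ζ) + (ζ - ξ) := by abel
  rw [h3]
  refine lt_of_le_of_lt (norm_add_le _ _) ?_
  rw [dist_eq_norm, ← norm_neg, neg_sub] at h
  linarith

theorem YY_map {φ : D →ₗ[k] D} (hφ : ∀ y ∈ I, φ y ∈ I) {ξ : κ → F} (hξ : ξ ∈ YY b f a S I) :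
    MF b f φ ξ ∈ YY b f a S I := by
  classical
  rw [mem_YY]
  intro η hη
  -- continuity at ξ
  have hc := (MF_continuous (b := b) (f := f) φ).continuousAt (x := ξ)
  rw [Metric.continuousAt_iff] at hc
  obtain ⟨δ, hδ, hc⟩ := hc η hη
  obtain ⟨C, hC, hCS⟩ : ∃ C : ℝ, 0 < C ∧ ∀ w ∈ S, ∀ x, nb b (a w) (φ x) ≤ C * nb b (a w) x := by
    choose C hC h using fun w => nb_map (b := b) (a w) φ
    refine ⟨1 + ∑ w ∈ S, C w, ?_, fun w hw x => (h w x).trans ?_⟩
    · have : 0 ≤ ∑ w ∈ S, C w := Finset.sum_nonneg fun w _ => (hC w).le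
      linarith
    · have h1 := Finset.single_le_sum (f := C) (fun w _ => (hC w).le) hw
      exact mul_le_mul_of_nonneg_right (by linarith) (nb_nonneg _ _)
  obtain ⟨y, hy, h1, h2⟩ := (mem_YY.1 hξ) (min δ (η / C)) (lt_min hδ (div_pos hη hC))
  refine ⟨φ y, hφ y hy, ?_, fun w hw => ?_⟩
  · have h3 : dist (jc b f y) ξ < δ := by
      rw [dist_eq_norm]; exact lt_of_lt_of_le h1 (min_le_left _ _)
    have h4 := hc h3
    rw [dist_eq_norm, MF_jc] at h4
    exact h4
  · refine lt_of_le_of_lt (hCS w hw y) ?_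
    have h5 := lt_of_lt_of_le (h2 w hw) (min_le_right _ _)
    rw [lt_div_iff₀ hC] at h5
    linarith

end closed

section dens

variable {R k D F κ σ : Type*} [CommRing R] [IsDomain R] [IsPrincipalIdealRing R] [Field k]
  [DivisionRing D] [StarRing D] [Algebra k D] [Algebra R k] [FaithfulSMul R k]
  [NormedField F] [ProperSpace F] [Fintype κ] [DecidableEq κ]
  {b : Basis κ k D} {f : k →+* F} {a : σ → AbsoluteValue k ℝ} {S : Finset σ}
  {I : AddSubgroup D}

/-- The elements all of whose multiples by the powers of `π⁻¹` are in `YY`. -/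
def PP (b : Basis κ k D) (f : k →+* F) (a : σ → AbsoluteValue k ℝ) (S : Finset σ)
    (I : AddSubgroup D) (p : F) : AddSubgroup (κ → F) where
  carrier := {ξ | ∀ m : ℕ, (p⁻¹) ^ m • ξ ∈ YY b f a S I}
  zero_mem' := fun m => by rw [smul_zero]; exact zero_mem _
  add_mem' := fun {ξ ζ} hξ hζ m => by rw [smul_add]; exact add_mem (hξ m) (hζ m)
  neg_mem' := fun {ξ} hξ m => by rw [smul_neg]; exact neg_mem (hξ m)

omit [StarRing D] [ProperSpace F] in
theorem mem_PP {p : F} {ξ : κ → F} :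
    ξ ∈ PP b f a S I p ↔ ∀ m : ℕ, (p⁻¹) ^ m • ξ ∈ YY b f a S I := Iff.rfl

omit [StarRing D] [ProperSpace F] in
theorem PP_le {p : F} {ξ : κ → F} (h : ξ ∈ PP b f a S I p) : ξ ∈ YY b f a S I := by
  have := (mem_PP.1 h) 0
  rwa [pow_zero, one_smul] at this

omit [StarRing D] [ProperSpace F] in
theorem PP_closed {p : F} : IsClosed (PP b f a S I p : Set (κ → F)) := by
  have : (PP b f a S I p : Set (κ → F)) =
      ⋂ m : ℕ, (fun ξ => (p⁻¹) ^ m • ξ) ⁻¹' (YY b f a S I : Set (κ → F)) := by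
    ext ξ
    simp only [Set.mem_iInter, Set.mem_preimage]
    exact Iff.rfl
  rw [this]
  exact isClosed_iInter fun m => YY_closed.preimage (continuous_const_smul _)

omit [StarRing D] [IsDomain R] [IsPrincipalIdealRing R] [FaithfulSMul R k] in
/-- Compactness: if `YY` is unbounded then `PP` is not zero. -/
theorem PP_ne_zero (hIR : ∀ r : R, ∀ y ∈ I, algebraMap R k r • y ∈ I) {π : R}
    (hπ0 : f (algebraMap R k π) ≠ 0) (hπ1 : ‖f (algebraMap R k π)‖ < 1)
    (hunb : ∀ M : ℝ, ∃ ξ ∈ YY b f a S I, M < ‖ξ‖) :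
    ∃ ξ ∈ PP b f a S I (f (algebraMap R k π)), ξ ≠ 0 := by
  set p : F := f (algebraMap R k π) with hp
  have hpos : 0 < ‖p‖ := norm_pos_iff.2 hπ0
  -- `YY` is stable under multiplication by powers of `p`
  have hY : ∀ (m : ℕ) (ξ : κ → F), ξ ∈ YY b f a S I → p ^ m • ξ ∈ YY b f a S I := by
    intro m ξ hξ
    have h1 := YY_map (b := b) (f := f) (a := a) (S := S) (I := I)
      (φ := (algebraMap R k (π ^ m)) • (LinearMap.id : D →ₗ[k] D))
      (fun y hy => by
        rw [LinearMap.smul_apply, LinearMap.id_apply]; exact hIR _ y hy) hξ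
    rwa [MF_smul, MF_id, map_pow, map_pow] at h1
  choose ξ hξY hξ using fun j : ℕ => hunb ((‖p‖⁻¹) ^ j)
  have h1p : 1 < ‖p‖⁻¹ := (one_lt_inv₀ hpos).2 hπ1
  have hn : ∀ j, ∃ n : ℕ, j ≤ n ∧ 1 ≤ ‖p ^ n • ξ j‖ ∧ ‖p ^ n • ξ j‖ ≤ ‖p‖⁻¹ := by
    intro j
    have h1 : 1 ≤ ‖ξ j‖ := (one_le_pow₀ h1p.le).trans (hξ j).le
    obtain ⟨n, hn1, hn2⟩ := exists_nat_pow_near h1 h1p
    have hnj : j ≤ n := by
      have h2 : ‖p‖⁻¹ ^ j < ‖p‖⁻¹ ^ (n + 1) := (hξ j).trans hn2
      exact Nat.lt_succ_iff.1 ((pow_lt_pow_iff_right₀ h1p).1 h2)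
    refine ⟨n, hnj, ?_, ?_⟩
    · rw [norm_smul, norm_pow]
      rw [inv_pow] at hn1
      have h3 : 0 < ‖p‖ ^ n := pow_pos hpos n
      calc (1 : ℝ) = ‖p‖ ^ n * (‖p‖ ^ n)⁻¹ := (mul_inv_cancel₀ h3.ne').symm
        _ ≤ ‖p‖ ^ n * ‖ξ j‖ := mul_le_mul_of_nonneg_left hn1 h3.le
    · rw [norm_smul, norm_pow]
      have h3 : 0 < ‖p‖ ^ n := pow_pos hpos n
      calc ‖p‖ ^ n * ‖ξ j‖ ≤ ‖p‖ ^ n * ‖p‖⁻¹ ^ (n + 1) :=
            mul_le_mul_of_nonneg_left hn2.le h3.le
        _ = ‖p‖⁻¹ := by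
            rw [pow_succ, inv_pow, ← mul_assoc, mul_inv_cancel₀ h3.ne', one_mul]
  choose n hnj hn1 hn2 using hn
  have hcomp := isCompact_closedBall (0 : κ → F) (‖p‖⁻¹)
  obtain ⟨ζ, -, φ, hφ, hlim⟩ := hcomp.tendsto_subseq (x := fun j => p ^ n j • ξ j)
    (fun j => by rw [mem_closedBall_zero_iff]; exact hn2 j)
  refine ⟨ζ, mem_PP.2 fun m => ?_, ?_⟩
  · have h2 : Tendsto (fun j => (p⁻¹) ^ m • (p ^ n (φ j) • ξ (φ j))) atTop
        (𝓝 ((p⁻¹) ^ m • ζ)) := (hlim.const_smul ((p⁻¹) ^ m))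
    refine YY_closed.mem_of_tendsto h2 ?_
    filter_upwards [eventually_ge_atTop m] with j hj
    have h3 : m ≤ n (φ j) := hj.trans ((hφ.id_le j).trans (hnj (φ j)))
    have h4 : (p⁻¹) ^ m • (p ^ n (φ j) • ξ (φ j)) = p ^ (n (φ j) - m) • ξ (φ j) := by
      rw [smul_smul]
      congr 1
      have h5 : p ^ n (φ j) = p ^ m * p ^ (n (φ j) - m) := by
        rw [← pow_add, Nat.add_sub_cancel' h3]
      rw [h5, ← mul_assoc, inv_pow, inv_mul_cancel₀ (pow_ne_zero _ hπ0), one_mul]
    rw [SetLike.mem_coe, h4]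
    exact hY _ _ (hξY _)
  · intro h0
    have h2 : Tendsto (fun j => ‖p ^ n (φ j) • ξ (φ j)‖) atTop (𝓝 ‖ζ‖) := hlim.norm
    have h3 : (1 : ℝ) ≤ ‖ζ‖ := ge_of_tendsto h2 (Eventually.of_forall fun j => hn1 _)
    rw [h0, norm_zero] at h3
    linarith

/-- The inverse of an element of `R` is a limit of elements of `R[1/π]`. -/
theorem inv_approx {π : R} (hπ : Prime π) (hR1 : ∀ r : R, ‖f (algebraMap R k r)‖ ≤ 1)
    (hπ1 : ‖f (algebraMap R k π)‖ < 1) {r : R} (hr : r ≠ 0) {η : ℝ} (hη : 0 < η) :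
    ∃ (t : R) (m : ℕ), ‖(f (algebraMap R k π))⁻¹ ^ m * f (algebraMap R k t) -
      (f (algebraMap R k r))⁻¹‖ < η := by
  have hinj : ∀ {r : R}, r ≠ 0 → f (algebraMap R k r) ≠ 0 := by
    intro r hr h
    rw [← map_zero f] at h
    have h1 := f.injective h
    rw [← map_zero (algebraMap R k)] at h1
    exact hr (FaithfulSMul.algebraMap_injective R k h1)
  set p : F := f (algebraMap R k π) with hp
  have hp0 : p ≠ 0 := hinj hπ.ne_zero
  obtain ⟨q, hrq, hq⟩ := FiniteMultiplicity.exists_eq_pow_mul_and_not_dvd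
    (FiniteMultiplicity.of_prime_left hπ hr)
  set m : ℕ := multiplicity π r with hm
  have hq0 : q ≠ 0 := by rintro rfl; exact hq (dvd_zero _)
  have hqF : f (algebraMap R k q) ≠ 0 := hinj hq0
  -- choose `M`
  have hpos : 0 < ‖p‖ ^ m * ‖f (algebraMap R k q)‖ :=
    mul_pos (pow_pos (norm_pos_iff.2 hp0) _) (norm_pos_iff.2 hqF)
  obtain ⟨M, hM⟩ := exists_pow_lt_of_lt_one (mul_pos hη hpos) hπ1
  have hcop : IsCoprime q (π ^ M) :=
    ((hπ.irreducible.coprime_iff_not_dvd.2 hq).symm).pow_right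
  obtain ⟨s, t, hst⟩ := hcop
  refine ⟨s, m, ?_⟩
  have h1 : f (algebraMap R k s) * f (algebraMap R k q) =
      1 - f (algebraMap R k t) * p ^ M := by
    rw [eq_sub_iff_add_eq, hp, ← map_pow, ← map_pow, ← map_mul, ← map_mul, ← map_mul,
      ← map_mul, ← map_add, ← map_add, hst, map_one, map_one]
  have h2 : f (algebraMap R k r) = p ^ m * f (algebraMap R k q) := by
    rw [hrq, map_mul, map_mul, map_pow, map_pow]
  have h3 : p⁻¹ ^ m * f (algebraMap R k s) - (f (algebraMap R k r))⁻¹ =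
      - (f (algebraMap R k t) * p ^ M * (p ^ m * f (algebraMap R k q))⁻¹) := by
    rw [h2]
    have h4 : f (algebraMap R k s) = (1 - f (algebraMap R k t) * p ^ M) *
        (f (algebraMap R k q))⁻¹ := by
      rw [← h1, mul_assoc, mul_inv_cancel₀ hqF, mul_one]
    rw [h4, mul_inv, inv_pow]
    ring
  rw [h3, norm_neg, norm_mul, norm_mul, norm_inv, norm_mul, norm_pow, norm_pow]
  rw [← div_eq_mul_inv, div_lt_iff₀ hpos]
  calc ‖f (algebraMap R k t)‖ * ‖p‖ ^ M ≤ 1 * ‖p‖ ^ M :=
        mul_le_mul_of_nonneg_right (hR1 t) (pow_nonneg (norm_nonneg _) _)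
    _ = ‖p‖ ^ M := one_mul _
    _ < _ := hM

/-- **Local density at one place.** -/
theorem dens_at [FiniteDimensional k D]
    (hst : ∀ (c : k) (x : D), star (c • x) = c • star x)
    (hcen : ∀ z : D, (∀ x, z * x = x * z) → star z = z → ∃ c : k, algebraMap k D c = z)
    (hf : DenseRange f)
    {π : R} (hπ : Prime π) (hR1 : ∀ r : R, ‖f (algebraMap R k r)‖ ≤ 1)
    (hπ1 : ‖f (algebraMap R k π)‖ < 1)
    (hIR : ∀ r : R, ∀ y ∈ I, algebraMap R k r • y ∈ I)
    (Λ : Set D) (hIl : ∀ c ∈ Λ, ∀ y ∈ I, c * y ∈ I) (hIr : ∀ c ∈ Λ, ∀ y ∈ I, y * c ∈ I)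
    (hIs : ∀ y ∈ I, star y ∈ I)
    (hgen : ∀ z : D, ∃ r : R, r ≠ 0 ∧ algebraMap R k r • z ∈ Λ)
    (hunb : ∀ M : ℝ, ∃ ξ ∈ YY b f a S I, M < ‖ξ‖) (ξ : κ → F) :
    ξ ∈ YY b f a S I := by
  have hinj : ∀ {r : R}, r ≠ 0 → f (algebraMap R k r) ≠ 0 := by
    intro r hr h
    rw [← map_zero f] at h
    have h1 := f.injective h
    rw [← map_zero (algebraMap R k)] at h1
    exact hr (FaithfulSMul.algebraMap_injective R k h1)
  set p : F := f (algebraMap R k π) with hp
  have hp0 : p ≠ 0 := hinj hπ.ne_zero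
  obtain ⟨ζ, hζ, hζ0⟩ := PP_ne_zero hIR hp0 hπ1 hunb
  rw [← hp] at hζ
  -- the stabilizer in the scalars
  have hPmap : ∀ φ : D →ₗ[k] D, (∀ y ∈ I, φ y ∈ I) → ∀ ξ ∈ PP b f a S I p,
      MF b f φ ξ ∈ PP b f a S I p := by
    intro φ hφ ξ hξ
    rw [mem_PP]
    intro m
    rw [← map_smul]
    exact YY_map hφ (mem_PP.1 hξ m)
  have hsp : ∀ m : ℕ, ∀ ξ ∈ PP b f a S I p, (p⁻¹) ^ m • ξ ∈ PP b f a S I p := by
    intro m ξ hξ
    rw [mem_PP]
    intro j
    rw [smul_smul, ← pow_add]
    exact mem_PP.1 hξ _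
  have hsR : ∀ r : R, ∀ ξ ∈ PP b f a S I p, f (algebraMap R k r) • ξ ∈ PP b f a S I p := by
    intro r ξ hξ
    have h1 := hPmap ((algebraMap R k r) • (LinearMap.id : D →ₗ[k] D))
      (fun y hy => by rw [LinearMap.smul_apply, LinearMap.id_apply]; exact hIR _ y hy) ξ hξ
    rwa [MF_smul, MF_id] at h1
  -- closedness of the scalar stabilizer
  have hscl : ∀ c : F, (∀ η : ℝ, 0 < η → ∃ c' : F, ‖c' - c‖ < η ∧
      ∀ ξ ∈ PP b f a S I p, c' • ξ ∈ PP b f a S I p) →
      ∀ ξ ∈ PP b f a S I p, c • ξ ∈ PP b f a S I p := by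
    intro c hc ξ hξ
    have h1 : c • ξ ∈ closure (PP b f a S I p : Set (κ → F)) := by
      rw [Metric.mem_closure_iff]
      intro η hη
      have hξ1 : 0 < ‖ξ‖ + 1 := by positivity
      obtain ⟨c', hc1, hc2⟩ := hc (η / (‖ξ‖ + 1)) (div_pos hη hξ1)
      refine ⟨c' • ξ, hc2 ξ hξ, ?_⟩
      rw [dist_comm, dist_eq_norm, ← sub_smul, norm_smul]
      rw [lt_div_iff₀ hξ1] at hc1
      have := norm_nonneg (c' - c)
      nlinarith [norm_nonneg ξ]
    rwa [PP_closed.closure_eq] at h1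
  have hsinv : ∀ r : R, r ≠ 0 → ∀ ξ ∈ PP b f a S I p,
      (f (algebraMap R k r))⁻¹ • ξ ∈ PP b f a S I p := by
    intro r hr
    refine hscl _ fun η hη => ?_
    obtain ⟨t, m, htm⟩ := inv_approx (f := f) hπ hR1 hπ1 hr hη
    refine ⟨_, htm, fun ξ hξ => ?_⟩
    rw [mul_smul]
    exact hsp m _ (hsR t ξ hξ)
  -- the subalgebra of the operators preserving `PP`
  have hcomm : ∀ (r : R) (z : D) (ξ : κ → F),
      MF b f (LinearMap.mulLeft k (algebraMap R k r • z)) ξ =
        f (algebraMap R k r) • MF b f (LinearMap.mulLeft k z) ξ := by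
    intro r z ξ
    rw [← MF_smul]
    congr 2
    ext x
    rw [LinearMap.mulLeft_apply, LinearMap.smul_apply, LinearMap.mulLeft_apply, smul_mul_assoc]
  have hcomm' : ∀ (r : R) (z : D) (ξ : κ → F),
      MF b f (LinearMap.mulRight k (algebraMap R k r • z)) ξ =
        f (algebraMap R k r) • MF b f (LinearMap.mulRight k z) ξ := by
    intro r z ξ
    rw [← MF_smul]
    congr 2
    ext x
    rw [LinearMap.mulRight_apply, LinearMap.smul_apply, LinearMap.mulRight_apply,
      mul_smul_comm]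
  have hTL : ∀ z : D, ∀ ξ ∈ PP b f a S I p,
      MF b f (LinearMap.mulLeft k z) ξ ∈ PP b f a S I p := by
    intro z ξ hξ
    obtain ⟨r, hr, hrz⟩ := hgen z
    have h1 := hPmap (LinearMap.mulLeft k (algebraMap R k r • z))
      (fun y hy => by rw [LinearMap.mulLeft_apply]; exact hIl _ hrz y hy) ξ hξ
    rw [hcomm] at h1
    have h2 := hsinv r hr _ h1
    rwa [smul_smul, inv_mul_cancel₀ (hinj hr), one_smul] at h2
  have hTR : ∀ z : D, ∀ ξ ∈ PP b f a S I p,
      MF b f (LinearMap.mulRight k z) ξ ∈ PP b f a S I p := by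
    intro z ξ hξ
    obtain ⟨r, hr, hrz⟩ := hgen z
    have h1 := hPmap (LinearMap.mulRight k (algebraMap R k r • z))
      (fun y hy => by rw [LinearMap.mulRight_apply]; exact hIr _ hrz y hy) ξ hξ
    rw [hcomm'] at h1
    have h2 := hsinv r hr _ h1
    rwa [smul_smul, inv_mul_cancel₀ (hinj hr), one_smul] at h2
  have hTk : ∀ c : k, ∀ ξ ∈ PP b f a S I p, f c • ξ ∈ PP b f a S I p := by
    intro c ξ hξ
    have h1 := hTL (algebraMap k D c) ξ hξ
    have h2 : LinearMap.mulLeft k (algebraMap k D c) = c • (LinearMap.id : D →ₗ[k] D) := by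
      ext x
      rw [LinearMap.mulLeft_apply, LinearMap.smul_apply, LinearMap.id_apply, Algebra.smul_def]
    rwa [h2, MF_smul, MF_id] at h1
  let T : Subalgebra k (Module.End k D) :=
    { carrier := {φ | ∀ ξ ∈ PP b f a S I p, MF b f φ ξ ∈ PP b f a S I p}
      mul_mem' := by
        intro φ ψ hφ hψ ξ hξ
        have h : MF b f (φ * ψ) ξ = MF b f φ (MF b f ψ ξ) := MF_comp φ ψ ξ
        rw [h]; exact hφ _ (hψ _ hξ)
      one_mem' := by
        intro ξ hξ
        have h : MF b f (1 : Module.End k D) ξ = ξ := MF_id ξ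
        rw [h]; exact hξ
      add_mem' := by
        intro φ ψ hφ hψ ξ hξ
        rw [MF_add]; exact add_mem (hφ _ hξ) (hψ _ hξ)
      zero_mem' := by
        intro ξ hξ
        rw [MF_zero]; exact zero_mem _
      algebraMap_mem' := by
        intro c ξ hξ
        have h : (algebraMap k (Module.End k D) c) = c • (LinearMap.id : D →ₗ[k] D) := by
          ext x; simp
        rw [h, MF_smul, MF_id]; exact hTk c ξ hξ }
  have hT : ∀ φ : Module.End k D, φ ∈ T := by
    refine end_dense hst hcen T (fun z => hTL z) (fun z => hTR z) ?_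
    exact hPmap (starL hst) (fun y hy => hIs y hy)
  -- scalars in `F`
  have hTF : ∀ c : F, ∀ ξ ∈ PP b f a S I p, c • ξ ∈ PP b f a S I p := by
    intro c
    refine hscl c fun η hη => ?_
    obtain ⟨y, hy⟩ := Metric.denseRange_iff.1 hf c η hη
    rw [dist_comm, dist_eq_norm] at hy
    exact ⟨f y, hy, fun ξ hξ => hTk y ξ hξ⟩
  -- a nonzero coordinate
  obtain ⟨i, hi⟩ : ∃ i, ζ i ≠ 0 := by
    by_contra h
    push Not at h
    exact hζ0 (funext h)
  have hunit : ∀ j : κ, Pi.single j (1 : F) ∈ PP b f a S I p := by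
    intro j
    let φ : Module.End k D := Matrix.toLin b b (Matrix.single j i (1 : k))
    have h1 : MF b f φ ζ ∈ PP b f a S I p := hT φ ζ hζ
    have h2 : MF b f φ ζ = ζ i • Pi.single j (1 : F) := by
      simp only [MF, Matrix.mulVecLin_apply, φ]
      rw [LinearMap.toMatrix_toLin]
      have h3 : (Matrix.single j i (1 : k)).map f = Matrix.single j i (1 : F) := by
        rw [Matrix.map_single, map_one]
      rw [h3]
      funext l
      rw [Matrix.mulVec, dotProduct, Pi.smul_apply, Pi.single_apply, smul_eq_mul]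
      rw [Finset.sum_eq_single i]
      · by_cases hl : l = j
        · subst hl; simp [Matrix.single_apply]
        · have hl' : j ≠ l := fun h => hl h.symm
          simp [Matrix.single_apply, hl, hl']
      · intro c _ hc
        have hc' : i ≠ c := fun h => hc h.symm
        simp [Matrix.single_apply, hc']
      · intro h; exact absurd (Finset.mem_univ i) h
    rw [h2] at h1
    have h3 := hTF (ζ i)⁻¹ _ h1
    rwa [smul_smul, inv_mul_cancel₀ hi, one_smul] at h3
  have hall : ξ ∈ PP b f a S I p := by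
    have h1 : ξ = ∑ j, ξ j • Pi.single j (1 : F) := by
      funext l
      rw [Finset.sum_apply]
      simp [Pi.single_apply]
    rw [h1]
    exact sum_mem fun j _ => hTF _ _ (hunit j)
  exact PP_le hall

end dens

end Vale.Agent.P011.H505.Span
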