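import Vale.Agent.P011.H505.Span.Abs
import Vale.Agent.P011.H505.Span.Dens

/-!
**The span lemma, abstract form (number fields and function fields at once).**

`span_of`: let `W ε` be the set of the unitary `u` with `ν i (u - 1) < ε` for all `i`.  Every `x`
with all `ν i x` small is a sum of elements `± (u - 1)`, `u ∈ W ε`.
-/

open Module Filter Topology

set_option linter.unusedSectionVars false

namespace Vale.Agent.P011.H505.Span

section main

variable {R k D κ ι Pl : Type*} [CommRing R] [IsDomain R] [IsPrincipalIdealRing R] [Field k]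
  [DivisionRing D] [StarRing D] [Algebra k D] [Algebra R k] [Algebra R D] [IsScalarTower R k D]
  [FaithfulSMul R k] [Fintype κ] [DecidableEq κ]

/-- Norm comparison. -/
theorem norm_jc_le {F : Type*} [NormedField F] {b : Basis κ k D} {f : k →+* F}
    {a : AbsoluteValue k ℝ} (hf : ∀ c, ‖f c‖ = a c) (x : D) : ‖jc b f x‖ ≤ nb b a x := by
  rw [pi_norm_le_iff_of_nonneg (nb_nonneg _ _)]
  intro i
  rw [jc, hf]
  exact le_nb a x i

theorem nb_le_norm {F : Type*} [NormedField F] {b : Basis κ k D} {f : k →+* F}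
    {a : AbsoluteValue k ℝ} (hf : ∀ c, ‖f c‖ = a c) (x : D) :
    nb b a x ≤ Fintype.card κ * ‖jc b f x‖ := by
  rw [nb]
  calc ∑ i, a (b.repr x i) ≤ ∑ _i : κ, ‖jc b f x‖ := by
        refine Finset.sum_le_sum fun i _ => ?_
        rw [← hf]
        exact norm_le_pi_norm (jc b f x) i
    _ = _ := by rw [Finset.sum_const, Finset.card_univ, nsmul_eq_mul]

/-- **The span lemma.** -/
theorem span_of [Finite ι] [FiniteDimensional k D] [Algebra.IsAlgebraic R D]
    {ν : ι → AbsoluteValue D ℝ} (hna : ∀ i x y, ν i (x + y) ≤ max (ν i x) (ν i y))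
    (hsν : ∀ i, ∃ j, ∀ x, ν j x = ν i (star x)) {ε : ℝ} (hε : 0 < ε) (hε1 : ε ≤ 1)
    {ω : D} (hω : star ω = 1 - ω) (hne : ω ≠ 1 - ω) (hc : ∀ x, ω * x = x * ω)
    (hbig : ∀ M : ℝ, ∃ f : D, star f = f ∧ ∀ i, M < ν i f)
    (hRL : ∀ r : R, algebraMap R D r ∈ Lm ν ε)
    (hst : ∀ (c : k) (x : D), star (c • x) = c • star x)
    (hcen : ∀ z : D, (∀ x, z * x = x * z) → star z = z → ∃ c : k, algebraMap k D c = z)
    (b : Basis κ k D) (a : Pl → AbsoluteValue k ℝ)
    (ha : ∀ v x y, a v (x + y) ≤ max (a v x) (a v y)) (A : Finset Pl)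
    (hmod : ∀ v ∉ A, ∃ (F : Type) (_ : NormedField F) (_ : ProperSpace F) (f : k →+* F),
      DenseRange f ∧ ∀ c, ‖f c‖ = a v c)
    (O : Set k) (hOR : ∀ r : R, ∀ c ∈ O, algebraMap R k r * c ∈ O)
    (hOG : ∃ G : Finset k, ∀ c ∈ O, c ∈ Submodule.span R (G : Set k))
    (hloc : ∀ π : R, Prime π → ∃ S : Finset Pl,
      (∀ v ∈ S, a v (algebraMap R k π) < 1 ∧ ∀ r : R, a v (algebraMap R k r) ≤ 1) ∧
      ∀ c : k, (∀ v ∈ S, a v c ≤ 1) → ∃ m : R, ¬ π ∣ m ∧ algebraMap R k m * c ∈ O)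
    (hU : ∀ S : Finset Pl, ∀ v ∉ A, ∀ M : ℝ, ∃ u1 : D, M < nb b (a v) u1 ∧
      ∀ η : ℝ, 0 < η → ∃ u ∈ Wn ν ε, nb b (a v) (u - u1) < η ∧
        ∀ w ∈ S, w ≠ v → nb b (a w) (u - 1) < η)
    (hν : ∀ v ∈ A, ∀ η : ℝ, 0 < η → ∃ δ > 0, ∀ x : D, (∀ i, ν i x < δ) →
      ∀ l, a v (b.repr x l) < η) :
    ∃ δ > 0, ∀ x : D, (∀ i, ν i x < δ) → x ∈ In ν ε := by
  classical
  have hIR : ∀ r : R, ∀ x ∈ In ν ε, algebraMap R D r * x ∈ In ν ε := fun r x hx =>
    Lm_mul_In hna hε1 (hRL r) hx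
  have hIR' : ∀ r : R, ∀ x ∈ In ν ε, algebraMap R k r • x ∈ In ν ε := fun r x hx => by
    rw [Algebra.smul_def, ← IsScalarTower.algebraMap_apply]; exact hIR r x hx
  have h0 := fun x : D => genI (R := R) hna hε hε1 hω hne hc hbig hRL x
  have hgen : ∀ z : D, ∃ r : R, r ≠ 0 ∧ algebraMap R k r • z ∈ (Lm ν ε : Set D) := by
    intro z
    obtain ⟨r, hr, h⟩ := gen (R := R) hna hε hω hne hc hbig hRL z
    refine ⟨r, hr, ?_⟩
    rw [Algebra.smul_def, ← IsScalarTower.algebraMap_apply]; exact h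
  -- the denominator
  obtain ⟨G, hG⟩ := hOG
  choose N hN0 hN using fun g : k => fun i : κ => h0 (algebraMap k D g * b i)
  let N0 : R := ∏ g ∈ G, ∏ i, N g i
  have hN00 : N0 ≠ 0 := Finset.prod_ne_zero_iff.2 fun g _ =>
    Finset.prod_ne_zero_iff.2 fun i _ => hN0 g i
  have hNg : ∀ g ∈ G, ∀ i, algebraMap k D (algebraMap R k N0 * g) * b i ∈ In ν ε := by
    intro g hg i
    obtain ⟨t, ht⟩ : N g i ∣ N0 :=
      (Finset.dvd_prod_of_mem (fun i => N g i) (Finset.mem_univ i)).trans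
        (Finset.dvd_prod_of_mem (fun g => ∏ i, N g i) hg)
    have h1 := hIR t _ (hN g i)
    have h2 : algebraMap k D (algebraMap R k N0 * g) * b i =
        algebraMap R D t * (algebraMap R D (N g i) * (algebraMap k D g * b i)) := by
      rw [map_mul, ← IsScalarTower.algebraMap_apply, ht, mul_comm (N g i) t, map_mul]
      simp only [mul_assoc]
    rw [h2]; exact h1
  have hNO : ∀ c ∈ O, ∀ i, algebraMap k D (algebraMap R k N0 * c) * b i ∈ In ν ε := by
    intro c hcO i
    have h1 := hG c hcO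
    clear hcO
    induction h1 using Submodule.span_induction with
    | mem g hg => exact hNg g hg i
    | zero => rw [mul_zero, map_zero, zero_mul]; exact zero_mem _
    | add x y _ _ hx hy => rw [mul_add, map_add, add_mul]; exact add_mem hx hy
    | smul t x _ hx =>
      have h2 : algebraMap k D (algebraMap R k N0 * t • x) * b i =
          algebraMap R D t * (algebraMap k D (algebraMap R k N0 * x) * b i) := by
        rw [Algebra.smul_def, ← mul_assoc (algebraMap R k N0), mul_comm (algebraMap R k N0),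
          mul_assoc (algebraMap R k t), map_mul, ← IsScalarTower.algebraMap_apply, mul_assoc]
      rw [h2]; exact hIR t _ hx
  refine span_asm b (In ν ε) hIR h0 O hOR N0 hN00 hNO a ha A ?_ ν hν
  intro π hπ
  obtain ⟨S, hS1, hS2⟩ := hloc π hπ
  refine ⟨S, hS2, fun x η hη => ?_⟩
  -- approximation at one place
  have hone : ∀ v ∈ S, v ∉ A → ∃ y ∈ In ν ε, (∀ i, a v (b.repr (x - y) i) < η) ∧
      ∀ w ∈ S, w ≠ v → ∀ i, a w (b.repr y i) < η := by
    intro v hv hvA
    obtain ⟨F, iF, iP, f, hfd, hfn⟩ := hmod v hvA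
    have h1 : jc b f x ∈ YY b f a (S.erase v) (In ν ε) := by
      refine dens_at (R := R) (π := π) (Λ := (Lm ν ε : Set D)) hst hcen hfd hπ
        (fun r => by rw [hfn]; exact (hS1 v hv).2 r) (by rw [hfn]; exact (hS1 v hv).1)
        hIR' (fun c hc y hy => Lm_mul_In hna hε1 hc hy) (fun c hc y hy => In_mul_Lm hna hε1 hc hy)
        (fun y hy => star_mem_In hsν hy) hgen ?_ _
      intro M
      obtain ⟨u1, hu1, hu⟩ := hU (S.erase v) v hvA
        ((Fintype.card κ : ℝ) * M + nb b (a v) 1)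
      refine ⟨jc b f (u1 - 1), ?_, ?_⟩
      · rw [mem_YY]
        intro η' hη'
        obtain ⟨u, huW, h2, h3⟩ := hu η' hη'
        refine ⟨u - 1, sub_mem_In huW, ?_, fun w hw => h3 w hw (Finset.ne_of_mem_erase hw)⟩
        have h4 : jc b f (u - 1) - jc b f (u1 - 1) = jc b f (u - u1) := by
          rw [← jc_sub]; congr 1; abel
        rw [h4]
        exact lt_of_le_of_lt (norm_jc_le hfn _) h2
      · have h2 := nb_add (b := b) (a v) (u1 - 1) 1
        rw [sub_add_cancel] at h2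
        have h3 := nb_le_norm (b := b) hfn (u1 - 1)
        have h4 : (Fintype.card κ : ℝ) * M < Fintype.card κ * ‖jc b f (u1 - 1)‖ := by
          linarith
        exact lt_of_mul_lt_mul_left h4 (Nat.cast_nonneg _)
    obtain ⟨y, hy, h2, h3⟩ := (mem_YY.1 h1) η hη
    refine ⟨y, hy, fun i => ?_, fun w hw hwv i =>
      lt_of_le_of_lt (le_nb _ _ _) (h3 w (Finset.mem_erase.2 ⟨hwv, hw⟩))⟩
    have h4 : ‖jc b f (x - y)‖ < η := by
      rw [jc_sub, ← norm_neg, neg_sub]; exact h2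
    have h5 := norm_le_pi_norm (jc b f (x - y)) i
    rw [jc, hfn] at h5
    exact lt_of_le_of_lt h5 h4
  -- sum over the places outside `A`
  choose! y hyI hy1 hy2 using hone
  refine ⟨∑ v ∈ S.filter (fun v => v ∉ A), y v, sum_mem fun v hv => ?_, fun v hv i => ?_⟩
  · rw [Finset.mem_filter] at hv
    exact hyI v hv.1 hv.2
  have hsum : ∀ (B : Finset Pl), (∀ w ∈ B, a v (b.repr (y w) i) < η) →
      a v (b.repr (∑ w ∈ B, y w) i) < η := by
    intro B
    induction B using Finset.induction_on with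
    | empty => intro _; simpa using hη
    | insert w B hw ih =>
      intro h
      rw [Finset.sum_insert hw, map_add, Finsupp.add_apply]
      exact lt_of_le_of_lt (ha v _ _) (max_lt (h w (Finset.mem_insert_self _ _))
        (ih fun w' hw' => h w' (Finset.mem_insert_of_mem hw')))
  refine ⟨fun hvA => ?_, fun hvA => ?_⟩
  · have hvm : v ∈ S.filter (fun v => v ∉ A) := Finset.mem_filter.2 ⟨hv, hvA⟩
    rw [← Finset.add_sum_erase _ _ hvm, ← sub_sub, map_sub, Finsupp.sub_apply, sub_eq_add_neg]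
    refine lt_of_le_of_lt (ha v _ _) (max_lt (hy1 v hv hvA i) ?_)
    rw [AbsoluteValue.map_neg]
    refine hsum _ fun w hw => ?_
    rw [Finset.mem_erase, Finset.mem_filter] at hw
    exact hy2 w hw.2.1 hw.2.2 v hv (Ne.symm hw.1) i
  · refine hsum _ fun w hw => ?_
    rw [Finset.mem_filter] at hw
    exact hy2 w hw.1 hw.2 v hv (fun h => hw.2 (h ▸ hvA)) i

end main

end Vale.Agent.P011.H505.Span
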