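import Vale.Agent.P011.H505.Span.Near
import Vale.Agent.P011.H182.Strong
import Vale.Agent.P011.H182.WAU

/-!
**The span lemma over number fields.**

`span_nf`: let `T` be a finite set of finite places of `k` containing the places of `Tdiv`.  For
every `ε` there is a `δ` such that every `x ∈ D` whose coordinates are smaller than `δ` at the
places of `T` is a sum of elements `± (u - 1)`, `u` unitary and `u - 1` smaller than `ε` at `T`.
-/

open Module NumberField IsDedekindDomain Filter Topology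

set_option linter.unusedSectionVars false

namespace Vale.Agent.P011.H505.Span

open Vale.Agent.P011.Arith Vale.Agent.P011.Even Vale.Agent.P011.Two Vale.Agent.P011.One
open Vale.Agent.P011.H182

section scalars

variable {k : Type} [Field k] [NumberField k]

theorem fa_ultra (v : HeightOneSpectrum (𝓞 k)) (x y : k) :
    fa v (x + y) ≤ max (fa v x) (fa v y) := isNonarch v x y

theorem fa_int_le (v : HeightOneSpectrum (𝓞 k)) (c : 𝓞 k) :
    fa v (algebraMap (𝓞 k) k c) ≤ 1 := by
  rw [plAbv_le_one]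
  exact v.valuation_le_one c

theorem fa_Z_le (v : HeightOneSpectrum (𝓞 k)) (r : ℤ) : fa v (algebraMap ℤ k r) ≤ 1 := by
  have h : algebraMap ℤ k r = algebraMap (𝓞 k) k (algebraMap ℤ (𝓞 k) r) := by simp
  rw [h]; exact fa_int_le v _

/-- Scalars large at finitely many places. -/
theorem exists_big (T : Finset (HeightOneSpectrum (𝓞 k))) (M : ℝ) :
    ∃ f : k, ∀ v ∈ T, M < fa v f := by
  classical
  have h1 : ∀ v : HeightOneSpectrum (𝓞 k), ∃ c : 𝓞 k, c ≠ 0 ∧
      fa v (algebraMap (𝓞 k) k c) < 1 := by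
    intro v
    obtain ⟨c, hc, hc0⟩ := Submodule.exists_mem_ne_zero_of_ne_bot v.ne_bot
    refine ⟨c, hc0, ?_⟩
    have h2 := plAbv_lt (F := k) v (algebraMap (𝓞 k) k c) 1
    rw [map_one, map_one] at h2
    exact h2.2 ((v.valuation_lt_one_iff_mem c).2 hc)
  choose c hc0 hc using h1
  let x : 𝓞 k := ∏ v ∈ T, c v
  have hx0 : algebraMap (𝓞 k) k x ≠ 0 := by
    have h2 : x ≠ 0 := Finset.prod_ne_zero_iff.2 fun v _ => hc0 v
    intro h
    exact h2 ((injective_iff_map_eq_zero _).1 (FaithfulSMul.algebraMap_injective (𝓞 k) k) x h)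
  have hx : ∀ v ∈ T, fa v (algebraMap (𝓞 k) k x) < 1 := by
    intro v hv
    have h2 : x = c v * ∏ w ∈ T.erase v, c w := (Finset.mul_prod_erase T c hv).symm
    rw [h2, map_mul, map_mul]
    calc fa v (algebraMap (𝓞 k) k (c v)) * fa v (algebraMap (𝓞 k) k (∏ w ∈ T.erase v, c w))
        ≤ fa v (algebraMap (𝓞 k) k (c v)) * 1 :=
          mul_le_mul_of_nonneg_left (fa_int_le v _) ((fa v).nonneg _)
      _ = fa v (algebraMap (𝓞 k) k (c v)) := mul_one _
      _ < 1 := hc v
  have hpos : ∀ v, 0 < fa v (algebraMap (𝓞 k) k x) := fun v => (fa v).pos hx0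
  have h3 : ∀ v ∈ T, ∃ j : ℕ, ∀ i, j ≤ i → M < (fa v (algebraMap (𝓞 k) k x))⁻¹ ^ i := by
    intro v hv
    have h4 : 1 < (fa v (algebraMap (𝓞 k) k x))⁻¹ := (one_lt_inv₀ (hpos v)).2 (hx v hv)
    obtain ⟨j, hj⟩ := pow_unbounded_of_one_lt M h4
    exact ⟨j, fun i hi => lt_of_lt_of_le hj (pow_le_pow_right₀ h4.le hi)⟩
  choose! j hj using h3
  refine ⟨(algebraMap (𝓞 k) k x)⁻¹ ^ (∑ v ∈ T, j v), fun v hv => ?_⟩
  rw [map_pow, map_inv₀]
  exact hj v hv _ (Finset.single_le_sum (f := j) (fun _ _ => Nat.zero_le _) hv)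

/-- The local condition for the integers. -/
theorem loc_int (π : ℤ) (hπ : Prime π) : ∃ S : Finset (HeightOneSpectrum (𝓞 k)),
    (∀ v ∈ S, fa v (algebraMap ℤ k π) < 1 ∧ ∀ r : ℤ, fa v (algebraMap ℤ k r) ≤ 1) ∧
    ∀ c : k, (∀ v ∈ S, fa v c ≤ 1) →
      ∃ m : ℤ, ¬ π ∣ m ∧ algebraMap ℤ k m * c ∈ Set.range (algebraMap (𝓞 k) k) := by
  classical
  have hπk : algebraMap ℤ k π ≠ 0 := by
    intro h
    have := hπ.ne_zero
    rw [← map_zero (algebraMap ℤ k)] at h
    exact this (FaithfulSMul.algebraMap_injective ℤ k h)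
  have hfin := finite_big (k := k) (algebraMap ℤ k π)⁻¹
  have hpos : ∀ v, 0 < fa v (algebraMap ℤ k π) := fun v => (fa v).pos hπk
  refine ⟨hfin.toFinset, fun v hv => ⟨?_, fa_Z_le v⟩, fun c hc => ?_⟩
  · rw [Set.Finite.mem_toFinset] at hv
    have h1 : ¬ fa v (algebraMap ℤ k π)⁻¹ ≤ 1 := hv
    rw [map_inv₀, not_le, one_lt_inv₀ (hpos v)] at h1
    exact h1
  · -- a nonzero integer multiple which is integral
    obtain ⟨m0, hm0, hm⟩ : ∃ m0 : ℤ, m0 ≠ 0 ∧
        algebraMap ℤ k m0 * c ∈ Set.range (algebraMap (𝓞 k) k) := by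
      have h0 : Algebra.IsAlgebraic ℚ k := inferInstance
      have h1 : Algebra.IsAlgebraic ℤ k :=
        (IsFractionRing.comap_isAlgebraic_iff (A := ℤ) (K := ℚ) (C := k)).2 h0
      obtain ⟨m, hm0, hm⟩ := (h1.isAlgebraic c).exists_integral_multiple
      refine ⟨m, hm0, ?_⟩
      have h2 : IsIntegral ℤ (algebraMap ℤ k m * c) := by
        rw [← Algebra.smul_def]; exact hm
      exact ⟨⟨_, h2⟩, rfl⟩
    obtain ⟨m, hmd, hmm⟩ := FiniteMultiplicity.exists_eq_pow_mul_and_not_dvd
      (FiniteMultiplicity.of_prime_left hπ hm0)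
    refine ⟨m, hmm, ?_⟩
    have h3 : ∀ v : HeightOneSpectrum (𝓞 k), v.valuation k (algebraMap ℤ k m * c) ≤ 1 := by
      intro v
      rw [← plAbv_le_one]
      by_cases hv : v ∈ hfin.toFinset
      · rw [map_mul]
        calc fa v (algebraMap ℤ k m) * fa v c ≤ 1 * 1 :=
              mul_le_mul (fa_Z_le v m) (hc v hv) ((fa v).nonneg _) zero_le_one
          _ = 1 := one_mul 1
      · rw [Set.Finite.mem_toFinset] at hv
        have h4 : fa v (algebraMap ℤ k π)⁻¹ ≤ 1 := not_not.1 hv
        rw [map_inv₀, inv_le_one₀ (hpos v)] at h4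
        have h5 : fa v (algebraMap ℤ k π) = 1 := le_antisymm (fa_Z_le v π) h4
        obtain ⟨e, he⟩ := hm
        have h6 : fa v (algebraMap ℤ k m0 * c) ≤ 1 := by rw [← he]; exact fa_int_le v e
        have h7 : algebraMap ℤ k m0 * c =
            (algebraMap ℤ k π) ^ multiplicity π m0 * (algebraMap ℤ k m * c) := by
          conv_lhs => rw [hmd]
          rw [map_mul, map_pow, mul_assoc]
        rw [h7, map_mul, map_pow, h5, one_pow, one_mul] at h6
        exact h6
    have h4 := HeightOneSpectrum.mem_integers_of_valuation_le_one k _ h3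
    exact h4

end scalars

variable {k K D : Type} [Field k] [NumberField k] [Field K] [NumberField K] [StarRing K]
  [DivisionRing D] [StarRing D] [Algebra k K] [Algebra k D] [Algebra K D] [IsScalarTower k K D]
  {d : kˣ} {s : K} {N : ℕ} {Ω : Type} [Field Ω] [Algebra K Ω] {n : ℕ}

/-- The unitary elements are unbounded at the places outside `Tdiv`. -/
theorem unb_na (hS : Setting k K D d s) (hn : 3 ≤ n) (hdeg : finrank K D = n ^ 2)
    (f : D →ₐ[K] Matrix (Fin n) (Fin n) Ω) (B : Basis (Fin N) k D)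
    {v : HeightOneSpectrum (𝓞 k)} (hv : (Sum.inl v : Pl k) ∉ Tdiv k K D) (M : ℝ) :
    ∃ u : D, u * star u = 1 ∧ M < nb B (fa v) u := by
  have hst : ∀ (c : k) (x : D), star (c • x) = c • star x :=
    fun c x => (Setting.sig hS).map_smul c x
  obtain ⟨R, -, g, hg, z, hz⟩ := unb hS hn hdeg f B hv
  obtain ⟨C, hC1, hCm, hCs⟩ := nb_const B (fa v) hst
  by_contra hcon
  push Not at hcon
  have hC0 : 0 ≤ C := zero_le_one.trans hC1
  obtain ⟨m, hm⟩ := hz (C * (C * |M| * nb B (fa v) z) * (C * |M|))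
  have hgu : g m * star (g m) = 1 := (wd_gu (hg m)).1
  have hgi : (g m)⁻¹ = star (g m) := inv_eq_of_mul_eq_one_right hgu
  have h1 : nb B (fa v) (g m) ≤ |M| := (hcon (g m) hgu).trans (le_abs_self M)
  have h2 : nb B (fa v) (star (g m)) ≤ C * |M| := (hCs _).trans
    (mul_le_mul_of_nonneg_left h1 hC0)
  have h3 : nb B (fa v) (g m * z * (g m)⁻¹) ≤ C * (C * |M| * nb B (fa v) z) * (C * |M|) := by
    rw [hgi]
    refine (hCm _ _).trans ?_
    have h4 : nb B (fa v) (g m * z) ≤ C * |M| * nb B (fa v) z := by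
      refine (hCm _ _).trans ?_
      exact mul_le_mul_of_nonneg_right (mul_le_mul_of_nonneg_left h1 hC0) (nb_nonneg _ _)
    have h5 := nb_nonneg (b := B) (fa v) (g m * z)
    have h6 := nb_nonneg (b := B) (fa v) (star (g m))
    have h7 := nb_nonneg (b := B) (fa v) z
    exact mul_le_mul (mul_le_mul_of_nonneg_left h4 hC0) h2 h6
      (mul_nonneg hC0 (mul_nonneg (mul_nonneg hC0 (abs_nonneg M)) h7))
  exact absurd hm (not_lt.2 h3)

/-- **The span lemma over number fields.** -/
theorem span_nf (hS : Setting k K D d s) (hn : 3 ≤ n) (hdeg : finrank K D = n ^ 2)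
    (f : D →ₐ[K] Matrix (Fin n) (Fin n) Ω) (B : Basis (Fin N) k D)
    (T : Finset (HeightOneSpectrum (𝓞 k)))
    (hT : ∀ v, (Sum.inl v : Pl k) ∈ Tdiv k K D → v ∈ T) {ε : ℝ} (hε : 0 < ε) :
    ∃ δ : ℝ, 0 < δ ∧ ∀ x : D, (∀ v ∈ T, ∀ l, fa v (B.repr x l) < δ) →
      x ∈ AddSubgroup.closure {y : D | ∃ u : D, u * star u = 1 ∧
        (∀ v ∈ T, ∀ l, fa v (B.repr (u - 1) l) < ε) ∧ y = u - 1} := by
  classical
  have hfinK := hS.fin
  have hcenK := hS.cen
  have hst : ∀ (c : k) (x : D), star (c • x) = c • star x :=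
    fun c x => (Setting.sig hS).map_smul c x
  have hfin : FiniteDimensional k D := Module.Finite.of_basis B
  have halg : Algebra.IsAlgebraic ℤ D := by
    have h0 : Algebra.IsAlgebraic ℚ k := inferInstance
    have h1 : Algebra.IsAlgebraic ℤ k :=
      (IsFractionRing.comap_isAlgebraic_iff (A := ℤ) (K := ℚ) (C := k)).2 h0
    exact Algebra.IsAlgebraic.trans ℤ k D
  have hstK : ∀ c : K, star (algebraMap K D c) = algebraMap K D (star c) := by
    intro c
    have h := hS.star_smul c (1 : D)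
    rw [star_one, Algebra.smul_def, Algebra.smul_def, mul_one, mul_one] at h
    exact h
  -- the element `ω = 1 / 2 + s / 2`
  have h2 : (2 : K) ≠ 0 := two_ne_zero
  have hs0 : s ≠ 0 := by
    intro h
    have h1 := hS.sq
    rw [h, zero_pow two_ne_zero] at h1
    exact (map_ne_zero (algebraMap k K)).2 d.ne_zero h1.symm
  let ω : D := algebraMap K D ((1 + s) / 2)
  have hω : star ω = 1 - ω := by
    simp only [ω]
    rw [hstK, ← map_one (algebraMap K D), ← map_sub]
    congr 1
    have h3 : star ((1 + s) / 2 : K) = (1 - s) / 2 := by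
      rw [star_div₀, star_add, star_one, hS.star_s, star_ofNat]; ring
    rw [h3]; field_simp; ring
  have hne : ω ≠ 1 - ω := by
    intro h
    simp only [ω] at h
    rw [← map_one (algebraMap K D), ← map_sub] at h
    have h3 := (algebraMap K D).injective h
    apply hs0
    have h4 : (1 + s) / 2 - (1 - (1 + s) / 2) = s := by field_simp; ring
    rw [← h4, ← h3, sub_self]
  have hc : ∀ x, ω * x = x * ω := fun x => Algebra.commutes _ x
  have hcen : ∀ z : D, (∀ x, z * x = x * z) → star z = z → ∃ c : k, algebraMap k D c = z := by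
    intro z hz hsz
    obtain ⟨c, hcz⟩ := Algebra.IsCentral.mem_center_iff K |>.1
      (Subalgebra.mem_center_iff.2 fun x => (hz x).symm)
    rw [hcz, hstK] at hsz
    have h3 := (algebraMap K D).injective hsz
    obtain ⟨e, he⟩ := (hS.fix c).1 h3
    refine ⟨e, ?_⟩
    rw [IsScalarTower.algebraMap_apply k K D, he, hcz]
  -- the group `W`
  obtain ⟨ε0, hε0, hW0⟩ := isW_Wt (b := B) (a := fun v : HeightOneSpectrum (𝓞 k) => fa v)
    (T := T) hst (fun v x y => fa_ultra v x y)
  set e : ℝ := min ε ε0 with he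
  have he0 : 0 < e := lt_min hε hε0
  have hW := hW0 e he0 (min_le_right _ _)
  have hcay := cay_Wt (b := B) (a := fun v : HeightOneSpectrum (𝓞 k) => fa v) (T := T) hst
    hω hne hc (fun M => exists_big T M) he0
  obtain ⟨δ, hδ, h⟩ := span_ofW (R := ℤ) (k := k) hW hω hne hc hcay
    (fun r => by rw [eq_intCast]; exact intCast_mem _ r) hst hcen B
    (fun v : HeightOneSpectrum (𝓞 k) => fa v) (fun v x y => fa_ultra v x y) T
    (fun v _ => ⟨v.adicCompletion k, inferInstance, inferInstance,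
      algebraMap k (v.adicCompletion k), HeightOneSpectrum.denseRange_algebraMap k v,
      fun c => norm_algebraMap_eq v c⟩)
    (Set.range (algebraMap (𝓞 k) k))
    (by
      rintro r _ ⟨c, rfl⟩
      exact ⟨algebraMap ℤ (𝓞 k) r * c, by simp⟩)
    (by
      obtain ⟨G, hG⟩ := (inferInstance : Module.Finite ℤ (𝓞 k)).fg_top
      refine ⟨G.image (algebraMap (𝓞 k) k), ?_⟩
      rintro _ ⟨c, rfl⟩
      have h1 : c ∈ Submodule.span ℤ (G : Set (𝓞 k)) := by rw [hG]; trivial
      have h2 := Submodule.mem_map_of_mem (f := (Algebra.linearMap (𝓞 k) k).restrictScalars ℤ) h1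
      rw [Submodule.map_span] at h2
      rw [Finset.coe_image]
      exact h2)
    (fun π hπ => loc_int π hπ)
    (by
      intro S v hv M
      have hv' : (Sum.inl v : Pl k) ∉ Tdiv k K D := fun h => hv (hT v h)
      obtain ⟨u1, hu1, hM⟩ := unb_na hS hn hdeg f B hv' M
      refine ⟨u1, hM, fun η hη => ?_⟩
      choose C hC1 _ hCs using fun w : HeightOneSpectrum (𝓞 k) => nb_const B (fa w) hst
      have hCpos : ∀ w, 0 < C w := fun w => lt_of_lt_of_le one_pos (hC1 w)
      let P : Set (Pl k) := Sum.inl '' (((insert v S) ∪ T : Finset (HeightOneSpectrum (𝓞 k))) :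
        Set (HeightOneSpectrum (𝓞 k)))
      have hP : P.Finite := (Finset.finite_toSet _).image _
      let u : Pl k → D := fun p => if p = Sum.inl v then u1 else 1
      have hu : ∀ p ∈ P, u p * star (u p) = 1 := by
        intro p _
        simp only [u]
        split_ifs
        · exact hu1
        · simp
      let εp : Pl k → ℝ := fun p => match p with
        | Sum.inl w => min η (e / C w)
        | Sum.inr _ => 1
      have hεp : ∀ p, 0 < εp p := by
        rintro (w | φ)
        · exact lt_min hη (div_pos he0 (hCpos w))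
        · exact one_pos
      obtain ⟨x, hx, hxP⟩ := wa_unitary (B := B) hS hP hu hεp
      have hxS : ∀ w ∈ (insert v S) ∪ T, nb B (fa w) (x - u (Sum.inl w)) <
          min η (e / C w) := fun w hw => hxP (Sum.inl w) ⟨w, hw, rfl⟩
      refine ⟨x, ⟨hx, fun w hw l => ?_⟩, ?_, fun w hw hwv => ?_⟩
      · have hwv : w ≠ v := fun h => hv (h ▸ hw)
        have h1 := hxS w (Finset.mem_union_right _ hw)
        have h2 : u (Sum.inl w) = 1 := by
          simp only [u]
          rw [if_neg]
          intro h; exact hwv (Sum.inl_injective h)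
        rw [h2] at h1
        have h3 := lt_of_lt_of_le h1 (min_le_right _ _)
        refine ⟨?_, ?_⟩
        · exact lt_of_le_of_lt (le_nb _ _ l) (lt_of_lt_of_le h3 (div_le_self he0.le (hC1 w)))
        · have h4 : star x - 1 = star (x - 1) := by rw [star_sub, star_one]
          rw [h4]
          refine lt_of_le_of_lt (le_nb _ _ l) (lt_of_le_of_lt (hCs w _) ?_)
          rw [lt_div_iff₀ (hCpos w)] at h3
          linarith
      · have h1 := hxS v (Finset.mem_union_left _ (Finset.mem_insert_self _ _))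
        have h2 : u (Sum.inl v) = u1 := if_pos rfl
        rw [h2] at h1
        exact lt_of_lt_of_le h1 (min_le_left _ _)
      · have h1 := hxS w (Finset.mem_union_left _ (Finset.mem_insert_of_mem hw))
        have h2 : u (Sum.inl w) = 1 := by
          simp only [u]
          rw [if_neg]
          intro h; exact hwv (Sum.inl_injective h)
        rw [h2] at h1
        exact lt_of_lt_of_le h1 (min_le_left _ _))
  refine ⟨δ, hδ, fun x hx => ?_⟩
  have h3 := h x hx
  refine AddSubgroup.closure_mono ?_ h3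
  rintro y ⟨u, hu, rfl⟩
  exact ⟨u, hu.1, fun v hv l => lt_of_lt_of_le (hu.2 v hv l).1 (min_le_left _ _), rfl⟩

end Vale.Agent.P011.H505.Span
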