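import Vale.Agent.P011.H505.Span.SpanW

/-!
**Groups of unitary elements near `1` at finitely many places** (any field, any family of
ultrametric absolute values): they satisfy the hypotheses `IsW` and `Cay` of `span_ofW`.
-/

open Module Filter Topology

set_option linter.unusedSectionVars false

namespace Vale.Agent.P011.H505.Span

section near

variable {k D κ : Type*} [Field k] [DivisionRing D] [StarRing D] [Algebra k D] [Fintype κ]
  [DecidableEq κ]

theorem nb_smul (b : Basis κ k D) (a : AbsoluteValue k ℝ) (c : k) (x : D) :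
    nb b a (c • x) = a c * nb b a x := by
  rw [nb, nb, Finset.mul_sum]
  exact Finset.sum_congr rfl fun i _ => by rw [map_smul, Finsupp.smul_apply, smul_eq_mul, map_mul]

theorem nb_sum (b : Basis κ k D) (a : AbsoluteValue k ℝ) {ι : Type*} (s : Finset ι) (f : ι → D) :
    nb b a (∑ i ∈ s, f i) ≤ ∑ i ∈ s, nb b a (f i) := by
  classical
  induction s using Finset.induction_on with
  | empty => simp [nb_zero]
  | insert i s hi ih =>
    rw [Finset.sum_insert hi, Finset.sum_insert hi]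
    exact (nb_add a _ _).trans (by linarith)

theorem nb_le_of (b : Basis κ k D) (a : AbsoluteValue k ℝ) {x : D} {M : ℝ}
    (h : ∀ i, a (b.repr x i) ≤ M) : nb b a x ≤ Fintype.card κ * M := by
  rw [nb]
  calc ∑ i, a (b.repr x i) ≤ ∑ _i : κ, M := Finset.sum_le_sum fun i _ => h i
    _ = _ := by rw [Finset.sum_const, Finset.card_univ, nsmul_eq_mul]

/-- One constant for the products and the star. -/
theorem nb_const (b : Basis κ k D) (a : AbsoluteValue k ℝ)
    (hst : ∀ (c : k) (x : D), star (c • x) = c • star x) :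
    ∃ C : ℝ, 1 ≤ C ∧ (∀ x y, nb b a (x * y) ≤ C * nb b a x * nb b a y) ∧
      ∀ x, nb b a (star x) ≤ C * nb b a x := by
  choose C hC hCm using fun i => nb_map (b := b) a (LinearMap.mulLeft k (b i))
  obtain ⟨C', hC', hs⟩ := nb_map (b := b) a (starL hst)
  have hC0 := Finset.sum_nonneg fun (i : κ) (_ : i ∈ Finset.univ) => (hC i).le
  refine ⟨∑ i, C i + C' + 1, by linarith, fun x y => ?_, fun x => ?_⟩
  · have h1 : x * y = ∑ i, b.repr x i • (b i * y) := by
      conv_lhs => rw [← b.sum_repr x]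
      rw [Finset.sum_mul]
      exact Finset.sum_congr rfl fun i _ => smul_mul_assoc _ _ _
    rw [h1]
    refine (nb_sum b a _ _).trans ?_
    have h2 : ∀ i ∈ (Finset.univ : Finset κ), nb b a (b.repr x i • (b i * y)) ≤
        (∑ i, C i + C' + 1) * nb b a y * a (b.repr x i) := by
      intro i _
      rw [nb_smul, mul_comm]
      refine mul_le_mul_of_nonneg_right ?_ (a.nonneg _)
      refine (hCm i y).trans ?_
      refine mul_le_mul_of_nonneg_right ?_ (nb_nonneg _ _)
      have := Finset.single_le_sum (f := C) (fun i _ => (hC i).le) (Finset.mem_univ i)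
      linarith
    refine (Finset.sum_le_sum h2).trans ?_
    rw [← Finset.mul_sum]
    change _ * nb b a x ≤ _
    exact le_of_eq (by ring)
  · refine (hs x).trans ?_
    exact mul_le_mul_of_nonneg_right (by linarith) (nb_nonneg _ _)

/-- The unitary elements `u` with `u - 1` and `u⋆ - 1` small. -/
def Wt {Pl : Type*} (b : Basis κ k D) (a : Pl → AbsoluteValue k ℝ) (T : Finset Pl) (ε : ℝ) :
    Set D :=
  {u | u * star u = 1 ∧ ∀ v ∈ T, ∀ l, a v (b.repr (u - 1) l) < ε ∧
    a v (b.repr (star u - 1) l) < ε}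

variable {Pl : Type*} {b : Basis κ k D} {a : Pl → AbsoluteValue k ℝ} {T : Finset Pl}

theorem Wt_mono {ε ε' : ℝ} (h : ε ≤ ε') : Wt b a T ε ⊆ Wt b a T ε' := fun _ hu =>
  ⟨hu.1, fun v hv l => ⟨lt_of_lt_of_le (hu.2 v hv l).1 h, lt_of_lt_of_le (hu.2 v hv l).2 h⟩⟩

theorem near_mul (ha : ∀ v x y, a v (x + y) ≤ max (a v x) (a v y)) {C ε : ℝ} {v : Pl}
    (hC : ∀ x y, nb b (a v) (x * y) ≤ C * nb b (a v) x * nb b (a v) y) (hC0 : 0 ≤ C)
    (hε : 0 < ε) (h : C * (Fintype.card κ : ℝ) ^ 2 * ε < 1) {x y : D}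
    (hx : ∀ l, a v (b.repr (x - 1) l) < ε) (hy : ∀ l, a v (b.repr (y - 1) l) < ε) (l : κ) :
    a v (b.repr (x * y - 1) l) < ε := by
  have h1 : x * y - 1 = (x - 1) * (y - 1) + ((x - 1) + (y - 1)) := by noncomm_ring
  have h2 : a v (b.repr ((x - 1) * (y - 1)) l) < ε := by
    refine lt_of_le_of_lt (le_nb _ _ l) (lt_of_le_of_lt (hC _ _) ?_)
    have h3 := nb_le_of b (a v) (fun i => (hx i).le)
    have h4 := nb_le_of b (a v) (fun i => (hy i).le)
    have h5 := nb_nonneg (b := b) (a v) (x - 1)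
    have h6 := nb_nonneg (b := b) (a v) (y - 1)
    have hc : (0 : ℝ) ≤ Fintype.card κ := Nat.cast_nonneg _
    calc C * nb b (a v) (x - 1) * nb b (a v) (y - 1)
        ≤ C * (Fintype.card κ * ε) * (Fintype.card κ * ε) := by
          have h7 : C * nb b (a v) (x - 1) ≤ C * (Fintype.card κ * ε) :=
            mul_le_mul_of_nonneg_left h3 hC0
          exact mul_le_mul h7 h4 h6 (mul_nonneg hC0 (mul_nonneg hc hε.le))
      _ = (C * (Fintype.card κ : ℝ) ^ 2 * ε) * ε := by ring
      _ < 1 * ε := mul_lt_mul_of_pos_right h hε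
      _ = ε := one_mul _
  have h3 : b.repr (x * y - 1) l = b.repr ((x - 1) * (y - 1)) l +
      (b.repr (x - 1) l + b.repr (y - 1) l) := by
    rw [h1, map_add, Finsupp.add_apply, map_add, Finsupp.add_apply]
  rw [h3]
  exact lt_of_le_of_lt (ha v _ _) (max_lt h2 (lt_of_le_of_lt (ha v _ _) (max_lt (hx l) (hy l))))

/-- For all small `ε` the set `Wt` is a group. -/
theorem isW_Wt (hst : ∀ (c : k) (x : D), star (c • x) = c • star x)
    (ha : ∀ v x y, a v (x + y) ≤ max (a v x) (a v y)) :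
    ∃ ε0 : ℝ, 0 < ε0 ∧ ∀ ε : ℝ, 0 < ε → ε ≤ ε0 → IsW (Wt b a T ε) := by
  classical
  choose C hC1 hCm _ using fun v => nb_const b (a v) hst
  let C0 : ℝ := ∑ v ∈ T, C v * (Fintype.card κ : ℝ) ^ 2
  have hnn : ∀ v, 0 ≤ C v * (Fintype.card κ : ℝ) ^ 2 := fun v =>
    mul_nonneg (zero_le_one.trans (hC1 v)) (sq_nonneg _)
  have hC0 : 0 ≤ C0 := Finset.sum_nonneg fun v _ => hnn v
  refine ⟨1 / (C0 + 1), by positivity, fun ε hε hε0 => ?_⟩
  have key : ∀ v ∈ T, C v * (Fintype.card κ : ℝ) ^ 2 * ε < 1 := by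
    intro v hv
    have h1 : C v * (Fintype.card κ : ℝ) ^ 2 ≤ C0 :=
      Finset.single_le_sum (f := fun v => C v * (Fintype.card κ : ℝ) ^ 2) (fun v _ => hnn v) hv
    rw [le_div_iff₀ (by positivity)] at hε0
    calc C v * (Fintype.card κ : ℝ) ^ 2 * ε ≤ C0 * ε := mul_le_mul_of_nonneg_right h1 hε.le
      _ < (C0 + 1) * ε := by nlinarith
      _ = ε * (C0 + 1) := mul_comm _ _
      _ ≤ 1 := hε0
  refine ⟨fun u hu => hu.1, ⟨by simp, fun v _ l => by simpa using hε⟩, ?_, ?_⟩
  · rintro u ⟨hu, hu'⟩ w ⟨hw, hw'⟩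
    refine ⟨by rw [star_mul, mul_assoc, ← mul_assoc w, hw, one_mul, hu], fun v hv l => ⟨?_, ?_⟩⟩
    · exact near_mul ha (hCm v) (zero_le_one.trans (hC1 v)) hε (key v hv)
        (fun l => (hu' v hv l).1) (fun l => (hw' v hv l).1) l
    · rw [star_mul]
      exact near_mul ha (hCm v) (zero_le_one.trans (hC1 v)) hε (key v hv)
        (fun l => (hw' v hv l).2) (fun l => (hu' v hv l).2) l
  · rintro u ⟨hu, hu'⟩
    exact ⟨by rw [star_star]; exact star_mul_of hu, fun v hv l =>
      ⟨(hu' v hv l).2, by rw [star_star]; exact (hu' v hv l).1⟩⟩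

/-- The Cayley elements of `f + y` are near `1` for `f ∈ k` large. -/
theorem cay_small (b : Basis κ k D) (a : AbsoluteValue k ℝ) (y ω : D) {ε : ℝ} (hε : 0 < ε) :
    ∃ M : ℝ, 0 < M ∧ ∀ f : k, M < a f → algebraMap k D f + y + (1 - ω) ≠ 0 →
      nb b a ((ω - (1 - ω)) * (algebraMap k D f + y + (1 - ω))⁻¹) < ε := by
  -- constants
  obtain ⟨C, hC1, hCm⟩ : ∃ C : ℝ, 1 ≤ C ∧ ∀ x y, nb b a (x * y) ≤ C * nb b a x * nb b a y := by
    choose C hC hCm using fun i => nb_map (b := b) a (LinearMap.mulLeft k (b i))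
    have hC0 := Finset.sum_nonneg fun (i : κ) (_ : i ∈ Finset.univ) => (hC i).le
    refine ⟨∑ i, C i + 1, by linarith, fun x y => ?_⟩
    have h1 : x * y = ∑ i, b.repr x i • (b i * y) := by
      conv_lhs => rw [← b.sum_repr x]
      rw [Finset.sum_mul]
      exact Finset.sum_congr rfl fun i _ => smul_mul_assoc _ _ _
    rw [h1]
    refine (nb_sum b a _ _).trans ?_
    have h2 : ∀ i ∈ (Finset.univ : Finset κ), nb b a (b.repr x i • (b i * y)) ≤
        (∑ i, C i + 1) * nb b a y * a (b.repr x i) := by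
      intro i _
      rw [nb_smul, mul_comm]
      refine mul_le_mul_of_nonneg_right ?_ (a.nonneg _)
      refine (hCm i y).trans ?_
      refine mul_le_mul_of_nonneg_right ?_ (nb_nonneg _ _)
      have := Finset.single_le_sum (f := C) (fun i _ => (hC i).le) (Finset.mem_univ i)
      linarith
    refine (Finset.sum_le_sum h2).trans ?_
    rw [← Finset.mul_sum]
    change _ * nb b a x ≤ _
    exact le_of_eq (by ring)
  set y' : D := y + (1 - ω) with hy'
  set q : ℝ := nb b a y' with hq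
  set e : ℝ := nb b a (ω - (1 - ω)) with he
  set o : ℝ := nb b a 1 with ho
  have hq0 : 0 ≤ q := nb_nonneg _ _
  have he0 : 0 ≤ e := nb_nonneg _ _
  have ho0 : 0 ≤ o := nb_nonneg _ _
  have hC0 : 0 < C := lt_of_lt_of_le one_pos hC1
  refine ⟨2 * C * q + C * e * (2 * o) / ε + 1, by positivity, fun f hf hne => ?_⟩
  have hf0 : 0 < a f := lt_trans (by positivity) hf
  have hf1 : f ≠ 0 := fun h => by rw [h, map_zero] at hf0; exact lt_irrefl _ hf0
  have hfD : algebraMap k D f ≠ 0 := by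
    intro h
    rw [← map_zero (algebraMap k D)] at h
    exact hf1 ((algebraMap k D).injective h)
  -- `w = (1 + f⁻¹ y')⁻¹`
  set z : D := algebraMap k D f + y + (1 - ω) with hz
  have hz' : z = algebraMap k D f + y' := by rw [hz, hy']; abel
  set w : D := algebraMap k D f * z⁻¹ with hw
  have hw1 : w = 1 - (f⁻¹ • y') * w := by
    have h1 : algebraMap k D f = z - y' := by rw [hz']; abel
    have h2 : w = 1 - y' * z⁻¹ := by
      rw [hw, h1, sub_mul, mul_inv_cancel₀ hne]
    have h3 : (f⁻¹ • y') * w = y' * z⁻¹ := by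
      rw [hw, smul_mul_assoc, ← mul_assoc, ← Algebra.commutes f y', mul_assoc, Algebra.smul_def,
        ← mul_assoc, ← map_mul, inv_mul_cancel₀ hf1, map_one, one_mul]
    rw [h3]; exact h2
  have hwn : nb b a w ≤ 2 * o := by
    have h1 : nb b a w ≤ o + C * nb b a (f⁻¹ • y') * nb b a w := by
      conv_lhs => rw [hw1]
      rw [sub_eq_add_neg]
      refine (nb_add a _ _).trans ?_
      rw [nb_neg]
      have := hCm (f⁻¹ • y') w
      linarith
    have h2 : C * nb b a (f⁻¹ • y') ≤ 1 / 2 := by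
      rw [nb_smul, map_inv₀, ← hq]
      have h3 : 2 * C * q ≤ a f := by
        have : 0 ≤ C * e * (2 * o) / ε := by positivity
        linarith
      rw [← mul_assoc, mul_comm C, mul_assoc, inv_mul_le_iff₀ hf0]
      linarith
    have h4 := nb_nonneg (b := b) a w
    nlinarith
  have hfin : (ω - (1 - ω)) * z⁻¹ = f⁻¹ • ((ω - (1 - ω)) * w) := by
    rw [hw, ← mul_assoc, ← Algebra.commutes f (ω - (1 - ω)), mul_assoc, Algebra.smul_def,
      ← mul_assoc, ← map_mul, inv_mul_cancel₀ hf1, map_one, one_mul]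
  rw [hfin, nb_smul, map_inv₀, inv_mul_lt_iff₀ hf0]
  have h5 : nb b a ((ω - (1 - ω)) * w) ≤ C * e * (2 * o) := by
    refine (hCm _ _).trans ?_
    exact mul_le_mul_of_nonneg_left hwn (mul_nonneg hC0.le he0)
  have h6 : C * e * (2 * o) / ε < a f := by
    have : 0 ≤ 2 * C * q := by positivity
    linarith
  rw [div_lt_iff₀ hε] at h6
  linarith

/-- The Cayley letter holds for `Wt`. -/
theorem cay_Wt (hst : ∀ (c : k) (x : D), star (c • x) = c • star x)
    {ω : D} (hω : star ω = 1 - ω) (hne : ω ≠ 1 - ω) (hc : ∀ x, ω * x = x * ω)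
    (hbig : ∀ M : ℝ, ∃ f : k, ∀ v ∈ T, M < a v f) {ε : ℝ} (hε : 0 < ε) :
    Cay ω (Wt b a T ε) := by
  classical
  intro y hy
  choose C hC1 _ hCs using fun v => nb_const b (a v) hst
  have hε' : ∀ v, 0 < ε / C v := fun v => div_pos hε (lt_of_lt_of_le one_pos (hC1 v))
  choose M1 hM1 h1 using fun v => cay_small b (a v) 0 ω (hε' v)
  choose M2 hM2 h2 using fun v => cay_small b (a v) y ω (hε' v)
  obtain ⟨f, hf⟩ := hbig (∑ v ∈ T, (M1 v + M2 v))
  have hfs : star (algebraMap k D f) = algebraMap k D f := by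
    rw [Algebra.algebraMap_eq_smul_one, hst, star_one]
  have hle : ∀ v ∈ T, M1 v + M2 v ≤ ∑ v ∈ T, (M1 v + M2 v) := fun v hv =>
    Finset.single_le_sum (f := fun v => M1 v + M2 v)
      (fun v _ => add_nonneg (hM1 v).le (hM2 v).le) hv
  have key : ∀ z : D, star z = z → (∀ v ∈ T, nb b (a v)
      ((ω - (1 - ω)) * (z + (1 - ω))⁻¹) < ε / C v) →
      (z + ω) * (z + (1 - ω))⁻¹ ∈ Wt b a T ε := by
    intro z hz hzv
    have h0 := add_ne hω hne hz
    refine ⟨cay_unitary hω hc hz h0, fun v hv l => ?_⟩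
    have h3 := hzv v hv
    have hCpos : 0 < C v := lt_of_lt_of_le one_pos (hC1 v)
    have h4 : ε / C v ≤ ε := div_le_self hε.le (hC1 v)
    refine ⟨?_, ?_⟩
    · rw [cay_sub h0]
      exact lt_of_le_of_lt (le_nb _ _ l) (lt_of_lt_of_le h3 h4)
    · have h5 : star ((z + ω) * (z + (1 - ω))⁻¹) - 1 =
          star ((ω - (1 - ω)) * (z + (1 - ω))⁻¹) := by
        rw [← cay_sub h0, star_sub, star_one]
      rw [h5]
      refine lt_of_le_of_lt (le_nb _ _ l) (lt_of_le_of_lt (hCs v _) ?_)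
      rw [lt_div_iff₀ hCpos] at h3
      linarith
  refine ⟨algebraMap k D f, hfs, key _ hfs fun v hv => ?_, key _ (by rw [star_add, hfs, hy])
    fun v hv => ?_⟩
  · have h3 := h1 v f (by linarith [hf v hv, hle v hv, hM2 v])
      (by rw [add_zero]; exact add_ne hω hne hfs)
    rwa [add_zero] at h3
  · exact h2 v f (by linarith [hf v hv, hle v hv, hM1 v])
      (add_ne hω hne (by rw [star_add, hfs, hy]))

end near

end Vale.Agent.P011.H505.Span
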