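import Vale.Agent.P011.H505.Span.Abs
import Vale.Agent.P011.H505.Span.Dens

/-!
**The span lemma for an abstract set of unitary elements.**

`W` is a set of unitary elements of `D` containing `1` and closed under products and the star
(an open subgroup for the topology given by a finite set `T` of places).  `span_ofW`: every `x`
small at the places of `T` is in the additive group generated by the `u - 1`, `u ∈ W`.
-/

open Module Filter Topology

set_option linter.unusedSectionVars false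

namespace Vale.Agent.P011.H505.Span

section basicW

variable {D : Type*} [DivisionRing D] [StarRing D]

/-- A set of unitary elements containing `1`, closed under products and the star. -/
structure IsW (W : Set D) : Prop where
  unit : ∀ u ∈ W, u * star u = 1
  one : (1 : D) ∈ W
  mul : ∀ u ∈ W, ∀ v ∈ W, u * v ∈ W
  star : ∀ u ∈ W, star u ∈ W

/-- The additive group spanned by the `u - 1`, `u ∈ W`. -/
def InW (W : Set D) : AddSubgroup D := AddSubgroup.closure {x | ∃ u ∈ W, x = u - 1}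

/-- The ring spanned by `W`. -/
def LmW (W : Set D) : Subring D := Subring.closure W

variable {W : Set D}

theorem sub_mem_InW {u : D} (hu : u ∈ W) : u - 1 ∈ InW W :=
  AddSubgroup.subset_closure ⟨u, hu, rfl⟩

theorem InW_mono {W' : Set D} (h : W ⊆ W') : InW W ≤ InW W' := by
  apply AddSubgroup.closure_mono
  rintro x ⟨u, hu, rfl⟩
  exact ⟨u, h hu, rfl⟩

theorem star_mem_InW (hW : IsW W) {x : D} (hx : x ∈ InW W) : star x ∈ InW W := by
  unfold InW at hx
  induction hx using AddSubgroup.closure_induction with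
  | mem x hx =>
    obtain ⟨u, hu, rfl⟩ := hx
    have h : Star.star (u - 1) = Star.star u - 1 := by simp
    rw [h]
    exact sub_mem_InW (hW.star u hu)
  | zero => rw [star_zero]; exact zero_mem _
  | add x y _ _ hx hy => rw [star_add]; exact add_mem hx hy
  | neg x _ hx => rw [star_neg]; exact neg_mem hx

theorem W_mul_InW (hW : IsW W) {w x : D} (hw : w ∈ W) (hx : x ∈ InW W) : w * x ∈ InW W := by
  unfold InW at hx
  induction hx using AddSubgroup.closure_induction with
  | mem x hx =>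
    obtain ⟨u, hu, rfl⟩ := hx
    have h : w * (u - 1) = (w * u - 1) - (w - 1) := by noncomm_ring
    rw [h]
    exact sub_mem (sub_mem_InW (hW.mul w hw u hu)) (sub_mem_InW hw)
  | zero => rw [mul_zero]; exact zero_mem _
  | add x y _ _ hx hy => rw [mul_add]; exact add_mem hx hy
  | neg x _ hx => rw [mul_neg]; exact neg_mem hx

theorem InW_mul_W (hW : IsW W) {w x : D} (hw : w ∈ W) (hx : x ∈ InW W) : x * w ∈ InW W := by
  unfold InW at hx
  induction hx using AddSubgroup.closure_induction with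
  | mem x hx =>
    obtain ⟨u, hu, rfl⟩ := hx
    have h : (u - 1) * w = (u * w - 1) - (w - 1) := by noncomm_ring
    rw [h]
    exact sub_mem (sub_mem_InW (hW.mul u hu w hw)) (sub_mem_InW hw)
  | zero => rw [zero_mul]; exact zero_mem _
  | add x y _ _ hx hy => rw [add_mul]; exact add_mem hx hy
  | neg x _ hx => rw [neg_mul]; exact neg_mem hx

theorem LmW_mul_InW (hW : IsW W) {a x : D} (ha : a ∈ LmW W) (hx : x ∈ InW W) :
    a * x ∈ InW W := by
  unfold LmW at ha
  induction ha using Subring.closure_induction generalizing x with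
  | mem a ha => exact W_mul_InW hW ha hx
  | zero => rw [zero_mul]; exact zero_mem _
  | one => rw [one_mul]; exact hx
  | add a b _ _ ha hb => rw [add_mul]; exact add_mem (ha hx) (hb hx)
  | neg a _ ha => rw [neg_mul]; exact neg_mem (ha hx)
  | mul a b _ _ ha hb => rw [mul_assoc]; exact ha (hb hx)

theorem InW_mul_LmW (hW : IsW W) {a x : D} (ha : a ∈ LmW W) (hx : x ∈ InW W) :
    x * a ∈ InW W := by
  unfold LmW at ha
  induction ha using Subring.closure_induction generalizing x with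
  | mem a ha => exact InW_mul_W hW ha hx
  | zero => rw [mul_zero]; exact zero_mem _
  | one => rw [mul_one]; exact hx
  | add a b _ _ ha hb => rw [mul_add]; exact add_mem (ha hx) (hb hx)
  | neg a _ ha => rw [mul_neg]; exact neg_mem (ha hx)
  | mul a b _ _ ha hb => rw [← mul_assoc]; exact hb (ha hx)

/-- The Cayley letter: for every symmetric `y` there is a symmetric `f` with the Cayley elements
of `f` and `f + y` in `W`. -/
def Cay (ω : D) (W : Set D) : Prop :=
  ∀ y : D, star y = y → ∃ f : D, star f = f ∧ (f + ω) * (f + (1 - ω))⁻¹ ∈ W ∧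
    (f + y + ω) * (f + y + (1 - ω))⁻¹ ∈ W

theorem add_ne {ω z : D} (hω : star ω = 1 - ω) (hne : ω ≠ 1 - ω) (hz : star z = z) :
    z + (1 - ω) ≠ 0 := by
  intro h
  have h2 : z = -(1 - ω) := eq_neg_of_add_eq_zero_left h
  have h3 : star z = - ω := by
    rw [h2, star_neg, star_sub, star_one, hω, sub_sub_cancel]
  rw [hz, h2] at h3
  exact hne (neg_injective h3).symm

variable {R : Type*} [CommRing R] [IsDomain R] [Algebra R D]

/-- Every element has a nonzero multiple in the ring spanned by `W`. -/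
theorem genW [Algebra.IsAlgebraic R D]
    {ω : D} (hω : star ω = 1 - ω) (hne : ω ≠ 1 - ω) (hc : ∀ x, ω * x = x * ω)
    (hcay : Cay ω W) (hRL : ∀ r : R, algebraMap R D r ∈ LmW W) (z : D) :
    ∃ r : R, r ≠ 0 ∧ algebraMap R D r * z ∈ LmW W := by
  classical
  obtain ⟨L, hL, hinv⟩ := gen_aux (LmW W) hRL
  suffices h : z ∈ L by exact (hL z).1 h
  have hWL : ∀ u ∈ W, u ∈ L := fun u hu =>
    (hL u).2 ⟨1, one_ne_zero, by rw [map_one, one_mul]; exact Subring.subset_closure hu⟩
  have hκ : ω - (1 - ω) ≠ 0 := sub_ne_zero.2 hne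
  -- the elements `(z + (1 - ω)) / (ω - (1 - ω))`
  have hg : ∀ y : D, star y = y → (y + ω) * (y + (1 - ω))⁻¹ ∈ W →
      (y + (1 - ω)) * (ω - (1 - ω))⁻¹ ∈ L := by
    intro y hy h2
    have h1 := add_ne hω hne hy
    have h3 := sub_mem (hWL _ h2) (one_mem L)
    rw [cay_sub h1] at h3
    have h4 := hinv _ h3
    rwa [mul_inv_rev, inv_inv] at h4
  have hsym : ∀ y : D, star y = y → y * (ω - (1 - ω))⁻¹ ∈ L := by
    intro y hy
    obtain ⟨f, hf, hf1, hf2⟩ := hcay y hy
    have h3 := hg f hf hf1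
    have h4 := hg (f + y) (by rw [star_add, hf, hy]) hf2
    have h5 := sub_mem h4 h3
    rw [← sub_mul] at h5
    have h6 : f + y + (1 - ω) - (f + (1 - ω)) = y := by abel
    rwa [h6] at h5
  have hκL : ω - (1 - ω) ∈ L := by
    have h := hinv _ (hsym 1 (star_one D))
    rwa [one_mul, inv_inv] at h
  have hsym' : ∀ y : D, star y = y → y ∈ L := by
    intro y hy
    have h := mul_mem (hsym y hy) hκL
    rwa [mul_assoc, inv_mul_cancel₀ hκ, mul_one] at h
  have hωL : ω ∈ L := by
    obtain ⟨f, hf, hf1, -⟩ := hcay 0 (star_zero D)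
    have h := mul_mem (hg f hf hf1) hκL
    rw [mul_assoc, inv_mul_cancel₀ hκ, mul_one] at h
    have h2 := sub_mem (add_mem (hsym' f hf) (one_mem L)) h
    have h3 : f + 1 - (f + (1 - ω)) = ω := by abel
    rwa [h3] at h2
  -- now every element
  have hcκ : ∀ x, (ω - (1 - ω)) * x = x * (ω - (1 - ω)) := by
    intro x
    rw [sub_mul, mul_sub, sub_mul, mul_sub, hc x, one_mul, mul_one]
  have hcκ' : ∀ x, (ω - (1 - ω))⁻¹ * x = x * (ω - (1 - ω))⁻¹ := by
    intro x
    have h := hcκ x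
    calc (ω - (1 - ω))⁻¹ * x = (ω - (1 - ω))⁻¹ * (x * (ω - (1 - ω))) * (ω - (1 - ω))⁻¹ := by
          rw [mul_assoc, mul_assoc, mul_inv_cancel₀ hκ, mul_one]
      _ = x * (ω - (1 - ω))⁻¹ := by
          rw [← h, ← mul_assoc, inv_mul_cancel₀ hκ, one_mul]
  have hsκ : star (ω - (1 - ω))⁻¹ = - (ω - (1 - ω))⁻¹ := by
    rw [star_inv₀]
    have : star (ω - (1 - ω)) = - (ω - (1 - ω)) := by
      rw [star_sub, star_sub, star_one, hω]; abel
    rw [this, inv_neg]
  let y : D := (z - star z) * (ω - (1 - ω))⁻¹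
  have hy : star y = y := by
    simp only [y]
    rw [star_mul, hsκ, star_sub, star_star, neg_mul, ← mul_neg, neg_sub, hcκ']
  have hyz : (z - star z) = (ω - (1 - ω)) * y := by
    simp only [y]
    rw [hcκ, mul_assoc, inv_mul_cancel₀ hκ, mul_one]
  have hx : star (z - ω * y) = z - ω * y := by
    rw [star_sub, star_mul, hy, hω]
    have h1 : y * (1 - ω) = (1 - ω) * y := by rw [mul_sub, sub_mul, hc y, mul_one, one_mul]
    have h2 : star z = z - (ω - (1 - ω)) * y := by rw [← hyz]; abel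
    rw [h1, h2]
    noncomm_ring
  have h1 := add_mem (hsym' _ hx) (mul_mem hωL (hsym' y hy))
  rwa [sub_add_cancel] at h1

/-- Every element has a nonzero multiple in the additive group spanned by the `u - 1`. -/
theorem genIW [Algebra.IsAlgebraic R D] (hW : IsW W)
    {ω : D} (hω : star ω = 1 - ω) (hne : ω ≠ 1 - ω) (hc : ∀ x, ω * x = x * ω)
    (hcay : Cay ω W) (hRL : ∀ r : R, algebraMap R D r ∈ LmW W) (z : D) :
    ∃ r : R, r ≠ 0 ∧ algebraMap R D r * z ∈ InW W := by
  obtain ⟨f, hf, hf1, -⟩ := hcay 0 (star_zero D)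
  have h1 := add_ne hω hne hf
  have hκ : ω - (1 - ω) ≠ 0 := sub_ne_zero.2 hne
  have h3 := sub_mem_InW hf1
  rw [cay_sub h1] at h3
  set w : D := (ω - (1 - ω)) * (f + (1 - ω))⁻¹ with hw
  have hw0 : w ≠ 0 := mul_ne_zero hκ (inv_ne_zero h1)
  obtain ⟨r, hr, hr'⟩ := genW (R := R) hω hne hc hcay hRL (z * w⁻¹)
  refine ⟨r, hr, ?_⟩
  have h4 := LmW_mul_InW hW hr' h3
  rwa [mul_assoc, mul_assoc, inv_mul_cancel₀ hw0, mul_one] at h4

end basicW

section asmW

variable {D : Type*} [DivisionRing D]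

/-- **Assembly.**  `O` is a subset of `k` (the integers, or the functions regular outside a
finite set), `I` is stable under `R`. -/
theorem span_asmW {R k Pl κ : Type*} [CommRing R] [IsDomain R] [IsPrincipalIdealRing R]
    [Field k] [Algebra R k] [Algebra k D] [Algebra R D] [IsScalarTower R k D]
    [FaithfulSMul R k] [Fintype κ]
    (b : Module.Basis κ k D) (I : AddSubgroup D)
    (hI : ∀ r : R, ∀ x ∈ I, algebraMap R D r * x ∈ I)
    (h0 : ∀ x : D, ∃ r : R, r ≠ 0 ∧ algebraMap R D r * x ∈ I)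
    (O : Set k) (hOR : ∀ r : R, ∀ c ∈ O, algebraMap R k r * c ∈ O)
    (N0 : R) (hN0 : N0 ≠ 0)
    (hO : ∀ c ∈ O, ∀ i, algebraMap k D (algebraMap R k N0 * c) * b i ∈ I)
    (a : Pl → AbsoluteValue k ℝ) (hna : ∀ v x y, a v (x + y) ≤ max (a v x) (a v y))
    (A : Finset Pl)
    (hloc : ∀ π : R, Prime π → ∃ S : Finset Pl,
      (∀ c : k, (∀ v ∈ S, a v c ≤ 1) → ∃ m : R, ¬ π ∣ m ∧ algebraMap R k m * c ∈ O) ∧
      (∀ x : D, ∀ η : ℝ, 0 < η → ∃ y ∈ I, ∀ v ∈ S, ∀ i,
        (v ∉ A → a v (b.repr (x - y) i) < η) ∧ (v ∈ A → a v (b.repr y i) < η))) :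
    ∃ δ > 0, ∀ x : D, (∀ v ∈ A, ∀ l, a v (b.repr x l) < δ) → x ∈ I := by
  classical
  have hN0k : algebraMap R k N0 ≠ 0 := by
    intro h
    rw [← map_zero (algebraMap R k)] at h
    exact hN0 (FaithfulSMul.algebraMap_injective R k h)
  have hNpos : ∀ v, 0 < a v (algebraMap R k N0) := fun v => (a v).pos hN0k
  -- the uniform `δ`
  obtain ⟨δ, hδ, hδA⟩ : ∃ δ : ℝ, 0 < δ ∧ ∀ v ∈ A, δ ≤ a v (algebraMap R k N0) := by
    rcases A.eq_empty_or_nonempty with h | h
    · exact ⟨1, one_pos, fun v hv => by rw [h] at hv; exact absurd hv (Finset.notMem_empty _)⟩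
    · refine ⟨A.inf' h (fun v => a v (algebraMap R k N0)), ?_, fun v hv =>
        Finset.inf'_le _ hv⟩
      rw [Finset.lt_inf'_iff]
      exact fun v _ => hNpos v
  refine ⟨δ, hδ, fun x hx => ?_⟩
  refine mem_of_prime I hI x (h0 x) fun π hπ => ?_
  obtain ⟨S, hS1, hS2⟩ := hloc π hπ
  obtain ⟨η, hη, hηS⟩ : ∃ η : ℝ, 0 < η ∧ ∀ v ∈ S, η ≤ a v (algebraMap R k N0) := by
    rcases S.eq_empty_or_nonempty with h | h
    · exact ⟨1, one_pos, fun v hv => by rw [h] at hv; exact absurd hv (Finset.notMem_empty _)⟩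
    · refine ⟨S.inf' h (fun v => a v (algebraMap R k N0)), ?_, fun v hv =>
        Finset.inf'_le _ hv⟩
      rw [Finset.lt_inf'_iff]
      exact fun v _ => hNpos v
  obtain ⟨y, hyI, hy⟩ := hS2 x η hη
  have hcoord : ∀ v ∈ S, ∀ i, a v (b.repr (x - y) i) < a v (algebraMap R k N0) := by
    intro v hv i
    by_cases hvA : v ∈ A
    · rw [map_sub, Finsupp.sub_apply, sub_eq_add_neg]
      refine lt_of_le_of_lt (hna v _ _) (max_lt (lt_of_lt_of_le (hx v hvA i) (hδA v hvA)) ?_)
      rw [AbsoluteValue.map_neg]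
      exact lt_of_lt_of_le ((hy v hv i).2 hvA) (hηS v hv)
    · exact lt_of_lt_of_le ((hy v hv i).1 hvA) (hηS v hv)
  -- multipliers
  have hm : ∀ i, ∃ m : R, ¬ π ∣ m ∧
      algebraMap R k m * (b.repr (x - y) i / algebraMap R k N0) ∈ O := by
    intro i
    refine hS1 _ fun v hv => ?_
    rw [map_div₀, div_le_one (hNpos v)]
    exact (hcoord v hv i).le
  choose m hm1 hm2 using hm
  have hmI : algebraMap R D (∏ i, m i) * (x - y) ∈ I := by
    have h1 : x - y = ∑ i, algebraMap k D (b.repr (x - y) i) * b i := by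
      conv_lhs => rw [← b.sum_repr (x - y)]
      exact Finset.sum_congr rfl fun i _ => by rw [Algebra.smul_def]
    rw [h1, Finset.mul_sum]
    refine sum_mem fun i _ => ?_
    have h2 := hO _ (hOR (∏ j ∈ Finset.univ.erase i, m j) _ (hm2 i)) i
    have h3 : algebraMap R k N0 * (algebraMap R k (∏ j ∈ Finset.univ.erase i, m j) *
        (algebraMap R k (m i) * (b.repr (x - y) i / algebraMap R k N0))) =
        algebraMap R k (∏ i, m i) * b.repr (x - y) i := by
      rw [← Finset.mul_prod_erase Finset.univ m (Finset.mem_univ i), map_mul]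
      field_simp
    rw [h3, map_mul, ← IsScalarTower.algebraMap_apply, mul_assoc] at h2
    exact h2
  refine ⟨∏ i, m i, ?_, ?_⟩
  · intro h
    obtain ⟨i, _, hi⟩ := (hπ.dvd_finsetProd_iff _).1 h
    exact hm1 i hi
  · have h1 := add_mem hmI (hI (∏ i, m i) y hyI)
    rwa [← mul_add, sub_add_cancel] at h1

end asmW

section main

variable {R k D κ Pl : Type*} [CommRing R] [IsDomain R] [IsPrincipalIdealRing R] [Field k]
  [DivisionRing D] [StarRing D] [Algebra k D] [Algebra R k] [Algebra R D] [IsScalarTower R k D]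
  [FaithfulSMul R k] [Fintype κ] [DecidableEq κ]

/-- Norm comparison. -/
theorem norm_jc_leW {F : Type*} [NormedField F] {b : Basis κ k D} {f : k →+* F}
    {a : AbsoluteValue k ℝ} (hf : ∀ c, ‖f c‖ = a c) (x : D) : ‖jc b f x‖ ≤ nb b a x := by
  rw [pi_norm_le_iff_of_nonneg (nb_nonneg _ _)]
  intro i
  rw [jc, hf]
  exact le_nb a x i

theorem nb_le_normW {F : Type*} [NormedField F] {b : Basis κ k D} {f : k →+* F}
    {a : AbsoluteValue k ℝ} (hf : ∀ c, ‖f c‖ = a c) (x : D) :
    nb b a x ≤ Fintype.card κ * ‖jc b f x‖ := by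
  rw [nb]
  calc ∑ i, a (b.repr x i) ≤ ∑ _i : κ, ‖jc b f x‖ := by
        refine Finset.sum_le_sum fun i _ => ?_
        rw [← hf]
        exact norm_le_pi_norm (jc b f x) i
    _ = _ := by rw [Finset.sum_const, Finset.card_univ, nsmul_eq_mul]

/-- **The span lemma.** -/
theorem span_ofW [FiniteDimensional k D] [Algebra.IsAlgebraic R D]
    {W : Set D} (hW : IsW W)
    {ω : D} (hω : star ω = 1 - ω) (hne : ω ≠ 1 - ω) (hc : ∀ x, ω * x = x * ω)
    (hcay : Cay ω W)
    (hRL : ∀ r : R, algebraMap R D r ∈ LmW W)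
    (hst : ∀ (c : k) (x : D), star (c • x) = c • star x)
    (hcen : ∀ z : D, (∀ x, z * x = x * z) → star z = z → ∃ c : k, algebraMap k D c = z)
    (b : Basis κ k D) (a : Pl → AbsoluteValue k ℝ)
    (ha : ∀ v x y, a v (x + y) ≤ max (a v x) (a v y)) (A : Finset Pl)
    (hmod : ∀ v ∉ A, ∃ (F : Type) (_ : NormedField F) (_ : ProperSpace F) (f : k →+* F),
      DenseRange f ∧ ∀ c, ‖f c‖ = a v c)
    (O : Set k) (hOR : ∀ r : R, ∀ c ∈ O, algebraMap R k r * c ∈ O)
    (hOG : ∃ G : Finset k, ∀ c ∈ O, c ∈ Submodule.span R (G : Set k))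
    (hloc : ∀ π : R, Prime π → ∃ S : Finset Pl,
      (∀ v ∈ S, a v (algebraMap R k π) < 1 ∧ ∀ r : R, a v (algebraMap R k r) ≤ 1) ∧
      ∀ c : k, (∀ v ∈ S, a v c ≤ 1) → ∃ m : R, ¬ π ∣ m ∧ algebraMap R k m * c ∈ O)
    (hU : ∀ S : Finset Pl, ∀ v ∉ A, ∀ M : ℝ, ∃ u1 : D, M < nb b (a v) u1 ∧
      ∀ η : ℝ, 0 < η → ∃ u ∈ W, nb b (a v) (u - u1) < η ∧
        ∀ w ∈ S, w ≠ v → nb b (a w) (u - 1) < η) :
    ∃ δ > 0, ∀ x : D, (∀ v ∈ A, ∀ l, a v (b.repr x l) < δ) → x ∈ InW W := by
  classical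
  have hIR : ∀ r : R, ∀ x ∈ InW W, algebraMap R D r * x ∈ InW W := fun r x hx =>
    LmW_mul_InW hW (hRL r) hx
  have hIR' : ∀ r : R, ∀ x ∈ InW W, algebraMap R k r • x ∈ InW W := fun r x hx => by
    rw [Algebra.smul_def, ← IsScalarTower.algebraMap_apply]; exact hIR r x hx
  have h0 := fun x : D => genIW (R := R) hW hω hne hc hcay hRL x
  have hgen : ∀ z : D, ∃ r : R, r ≠ 0 ∧ algebraMap R k r • z ∈ (LmW W : Set D) := by
    intro z
    obtain ⟨r, hr, h⟩ := genW (R := R) hω hne hc hcay hRL z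
    refine ⟨r, hr, ?_⟩
    rw [Algebra.smul_def, ← IsScalarTower.algebraMap_apply]; exact h
  -- the denominator
  obtain ⟨G, hG⟩ := hOG
  choose N hN0 hN using fun g : k => fun i : κ => h0 (algebraMap k D g * b i)
  let N0 : R := ∏ g ∈ G, ∏ i, N g i
  have hN00 : N0 ≠ 0 := Finset.prod_ne_zero_iff.2 fun g _ =>
    Finset.prod_ne_zero_iff.2 fun i _ => hN0 g i
  have hNg : ∀ g ∈ G, ∀ i, algebraMap k D (algebraMap R k N0 * g) * b i ∈ InW W := by
    intro g hg i
    obtain ⟨t, ht⟩ : N g i ∣ N0 :=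
      (Finset.dvd_prod_of_mem (fun i => N g i) (Finset.mem_univ i)).trans
        (Finset.dvd_prod_of_mem (fun g => ∏ i, N g i) hg)
    have h1 := hIR t _ (hN g i)
    have h2 : algebraMap k D (algebraMap R k N0 * g) * b i =
        algebraMap R D t * (algebraMap R D (N g i) * (algebraMap k D g * b i)) := by
      rw [map_mul, ← IsScalarTower.algebraMap_apply, ht, mul_comm (N g i) t, map_mul]
      simp only [mul_assoc]
    rw [h2]; exact h1
  have hNO : ∀ c ∈ O, ∀ i, algebraMap k D (algebraMap R k N0 * c) * b i ∈ InW W := by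
    intro c hcO i
    have h1 := hG c hcO
    clear hcO
    induction h1 using Submodule.span_induction with
    | mem g hg => exact hNg g hg i
    | zero => rw [mul_zero, map_zero, zero_mul]; exact zero_mem _
    | add x y _ _ hx hy => rw [mul_add, map_add, add_mul]; exact add_mem hx hy
    | smul t x _ hx =>
      have h2 : algebraMap k D (algebraMap R k N0 * t • x) * b i =
          algebraMap R D t * (algebraMap k D (algebraMap R k N0 * x) * b i) := by
        rw [Algebra.smul_def, ← mul_assoc (algebraMap R k N0), mul_comm (algebraMap R k N0),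
          mul_assoc (algebraMap R k t), map_mul, ← IsScalarTower.algebraMap_apply, mul_assoc]
      rw [h2]; exact hIR t _ hx
  refine span_asmW b (InW W) hIR h0 O hOR N0 hN00 hNO a ha A ?_
  intro π hπ
  obtain ⟨S, hS1, hS2⟩ := hloc π hπ
  refine ⟨S, hS2, fun x η hη => ?_⟩
  -- approximation at one place
  have hone : ∀ v ∈ S, v ∉ A → ∃ y ∈ InW W, (∀ i, a v (b.repr (x - y) i) < η) ∧
      ∀ w ∈ S, w ≠ v → ∀ i, a w (b.repr y i) < η := by
    intro v hv hvA
    obtain ⟨F, iF, iP, f, hfd, hfn⟩ := hmod v hvA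
    have h1 : jc b f x ∈ YY b f a (S.erase v) (InW W) := by
      refine dens_at (R := R) (π := π) (Λ := (LmW W : Set D)) hst hcen hfd hπ
        (fun r => by rw [hfn]; exact (hS1 v hv).2 r) (by rw [hfn]; exact (hS1 v hv).1)
        hIR' (fun c hc y hy => LmW_mul_InW hW hc hy) (fun c hc y hy => InW_mul_LmW hW hc hy)
        (fun y hy => star_mem_InW hW hy) hgen ?_ _
      intro M
      obtain ⟨u1, hu1, hu⟩ := hU (S.erase v) v hvA
        ((Fintype.card κ : ℝ) * M + nb b (a v) 1)
      refine ⟨jc b f (u1 - 1), ?_, ?_⟩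
      · rw [mem_YY]
        intro η' hη'
        obtain ⟨u, huW, h2, h3⟩ := hu η' hη'
        refine ⟨u - 1, sub_mem_InW huW, ?_, fun w hw => h3 w hw (Finset.ne_of_mem_erase hw)⟩
        have h4 : jc b f (u - 1) - jc b f (u1 - 1) = jc b f (u - u1) := by
          rw [← jc_sub]; congr 1; abel
        rw [h4]
        exact lt_of_le_of_lt (norm_jc_leW hfn _) h2
      · have h2 := nb_add (b := b) (a v) (u1 - 1) 1
        rw [sub_add_cancel] at h2
        have h3 := nb_le_normW (b := b) hfn (u1 - 1)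
        have h4 : (Fintype.card κ : ℝ) * M < Fintype.card κ * ‖jc b f (u1 - 1)‖ := by
          linarith
        exact lt_of_mul_lt_mul_left h4 (Nat.cast_nonneg _)
    obtain ⟨y, hy, h2, h3⟩ := (mem_YY.1 h1) η hη
    refine ⟨y, hy, fun i => ?_, fun w hw hwv i =>
      lt_of_le_of_lt (le_nb _ _ _) (h3 w (Finset.mem_erase.2 ⟨hwv, hw⟩))⟩
    have h4 : ‖jc b f (x - y)‖ < η := by
      rw [jc_sub, ← norm_neg, neg_sub]; exact h2
    have h5 := norm_le_pi_norm (jc b f (x - y)) i
    rw [jc, hfn] at h5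
    exact lt_of_le_of_lt h5 h4
  -- sum over the places outside `A`
  choose! y hyI hy1 hy2 using hone
  refine ⟨∑ v ∈ S.filter (fun v => v ∉ A), y v, sum_mem fun v hv => ?_, fun v hv i => ?_⟩
  · rw [Finset.mem_filter] at hv
    exact hyI v hv.1 hv.2
  have hsum : ∀ (B : Finset Pl), (∀ w ∈ B, a v (b.repr (y w) i) < η) →
      a v (b.repr (∑ w ∈ B, y w) i) < η := by
    intro B
    induction B using Finset.induction_on with
    | empty => intro _; simpa using hη
    | insert w B hw ih =>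
      intro h
      rw [Finset.sum_insert hw, map_add, Finsupp.add_apply]
      exact lt_of_le_of_lt (ha v _ _) (max_lt (h w (Finset.mem_insert_self _ _))
        (ih fun w' hw' => h w' (Finset.mem_insert_of_mem hw')))
  refine ⟨fun hvA => ?_, fun hvA => ?_⟩
  · have hvm : v ∈ S.filter (fun v => v ∉ A) := Finset.mem_filter.2 ⟨hv, hvA⟩
    rw [← Finset.add_sum_erase _ _ hvm, ← sub_sub, map_sub, Finsupp.sub_apply, sub_eq_add_neg]
    refine lt_of_le_of_lt (ha v _ _) (max_lt (hy1 v hv hvA i) ?_)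
    rw [AbsoluteValue.map_neg]
    refine hsum _ fun w hw => ?_
    rw [Finset.mem_erase, Finset.mem_filter] at hw
    exact hy2 w hw.2.1 hw.2.2 v hv (Ne.symm hw.1) i
  · refine hsum _ fun w hw => ?_
    rw [Finset.mem_filter] at hw
    exact hy2 w hw.1 hw.2 v hv (fun h => hw.2 (h ▸ hvA)) i

end main

end Vale.Agent.P011.H505.Span
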